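import Vale.Agent.P272.DA.Fred

/-!
# P272, frames: solutions of `g + cauT (A g) = p` and their determinants
-/

open MeasureTheory Set Metric Filter Topology Bornology
open scoped BoundedContinuousFunction Matrix Polynomial

noncomputable section

namespace Vale.Agent.P272.DA

open Vale.Agent.P272.CT

variable {n : ℕ}

/-! ### linear algebra -/

theorem sum_det_updateRow (M B : Matrix (Fin n) (Fin n) ℂ) :
    ∑ i, (M.updateRow i (B *ᵥ M i)).det = B.trace * M.det := by
  have h1 : ∀ i, (M.updateRow i (B *ᵥ M i)).det = (Mᵀ.adjugate * B * Mᵀ) i i := by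
    intro i
    rw [← Matrix.cramer_transpose_apply, Matrix.cramer_eq_adjugate_mulVec, Matrix.mulVec_mulVec]
    rfl
  have h2 : ∑ i, (M.updateRow i (B *ᵥ M i)).det = (Mᵀ.adjugate * B * Mᵀ).trace := by
    rw [Matrix.trace]
    exact Finset.sum_congr rfl fun i _ => h1 i
  rw [h2, Matrix.mul_assoc, Matrix.trace_mul_comm, Matrix.mul_assoc, Matrix.mul_adjugate,
    Matrix.det_transpose, Matrix.mul_smul, Matrix.mul_one, Matrix.trace_smul, smul_eq_mul, mul_comm]

/-- the determinant as a continuous multilinear map of the rows -/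
def detC (n : ℕ) : ContinuousMultilinearMap ℂ (fun _ : Fin n => Fin n → ℂ) ℂ :=
  { (Matrix.detRowAlternating (n := Fin n) (R := ℂ)).toMultilinearMap with
    cont := by
      change Continuous fun M : Fin n → Fin n → ℂ => Matrix.det (Matrix.of M)
      exact Continuous.matrix_det continuous_id }

theorem detC_apply (M : Fin n → Fin n → ℂ) : detC n M = (Matrix.of M).det := rfl

theorem fderiv_detC (M H : Fin n → Fin n → ℂ) :
    fderiv ℂ (detC n) M H = ∑ i, ((Matrix.of M).updateRow i (H i)).det := by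
  rw [((detC n).hasFDerivAt M).fderiv]
  rw [ContinuousMultilinearMap.linearDeriv_apply]
  rfl

/-! ### weak derivatives -/

section wdb

variable {E F : Type*} [NormedAddCommGroup E] [NormedSpace ℂ E] [NormedAddCommGroup F]
  [NormedSpace ℂ F] [CompleteSpace E] [CompleteSpace F]

theorem wdb_clm {Ω : Set ℂ} (hΩ : IsOpen Ω) {v q : ℂ → E} (hv : ContinuousOn v Ω)
    (hq : ContinuousOn q Ω) (h : WDb Ω v q) (L : E →L[ℂ] F) :
    WDb Ω (fun z => L (v z)) fun z => L (q z) := by
  have h1 := h.comp_holo hΩ hv hq isOpen_univ (Φ := L) L.contDiff.contDiffOn fun z _ => trivial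
  simpa using h1

theorem wdb_sub {Ω : Set ℂ} (hΩ : IsOpen Ω) {v q w r : ℂ → E} (hv : ContinuousOn v Ω)
    (hq : ContinuousOn q Ω) (hw : ContinuousOn w Ω) (hr : ContinuousOn r Ω)
    (h1 : WDb Ω v q) (h2 : WDb Ω w r) :
    WDb Ω (fun z => v z - w z) fun z => q z - r z := by
  have h3 := WDb.prodMk hΩ hv hq hw hr h1 h2
  exact wdb_clm hΩ (hv.prodMk hw) (hq.prodMk hr) h3
    (ContinuousLinearMap.fst ℂ E E - ContinuousLinearMap.snd ℂ E E)

theorem wdb_mul {Ω : Set ℂ} (hΩ : IsOpen Ω) {v q w r : ℂ → ℂ} (hv : ContinuousOn v Ω)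
    (hq : ContinuousOn q Ω) (hw : ContinuousOn w Ω) (hr : ContinuousOn r Ω)
    (h1 : WDb Ω v q) (h2 : WDb Ω w r) :
    WDb Ω (fun z => v z * w z) fun z => q z * w z + v z * r z := by
  have h3 := WDb.prodMk hΩ hv hq hw hr h1 h2
  have h4 := h3.comp_holo hΩ (hv.prodMk hw) (hq.prodMk hr) isOpen_univ
    (Φ := fun x : ℂ × ℂ => x.1 * x.2) (contDiff_fst.mul contDiff_snd).contDiffOn
    fun z _ => trivial
  refine h4.congr (fun _ _ => rfl) fun z _ => ?_
  have h5 : HasFDerivAt (fun x : ℂ × ℂ => x.1 * x.2) _ (v z, w z) :=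
    (hasFDerivAt_fst (𝕜 := ℂ) (E := ℂ) (F := ℂ) (p := (v z, w z))).mul hasFDerivAt_snd
  simp only
  rw [h5.fderiv]
  simp only [add_apply, smul_apply, ContinuousLinearMap.coe_snd',
    ContinuousLinearMap.coe_fst', smul_eq_mul]
  ring

theorem wdb_exp {Ω : Set ℂ} (hΩ : IsOpen Ω) {v q : ℂ → ℂ} (hv : ContinuousOn v Ω)
    (hq : ContinuousOn q Ω) (h : WDb Ω v q) :
    WDb Ω (fun z => Complex.exp (v z)) fun z => Complex.exp (v z) * q z := by
  have h4 := h.comp_holo hΩ hv hq isOpen_univ (Φ := Complex.exp) Complex.contDiff_exp.contDiffOn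
    fun z _ => trivial
  refine h4.congr (fun _ _ => rfl) fun z _ => ?_
  simp only
  rw [(Complex.hasDerivAt_exp (v z)).hasFDerivAt.fderiv]
  simp [mul_comm]

theorem wdb_pi {ι : Type*} [Fintype ι] {Ω : Set ℂ} (hΩ : IsOpen Ω) {v q : ι → ℂ → E}
    (hv : ∀ i, ContinuousOn (v i) Ω) (hq : ∀ i, ContinuousOn (q i) Ω)
    (h : ∀ i, WDb Ω (v i) (q i)) : WDb Ω (fun z i => v i z) fun z i => q i z := by
  intro η h1 h2 h3
  have hdc : Continuous (dbar η) := (contDiff_dbar h1).continuous
  have hds : HasCompactSupport (dbar η) := hasCompactSupport_dbar h2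
  have i1 : ∀ i, Integrable fun z => dbar η z • v i z := fun i =>
    integrable_smul_of_tsupport hΩ hdc hds (hv i) ((tsupport_dbar η).trans h3)
  have i2 : ∀ i, Integrable fun z => η z • q i z := fun i =>
    integrable_smul_of_tsupport hΩ h1.continuous h2 (hq i) h3
  funext i
  rw [Pi.neg_apply, eval_integral, eval_integral]
  · exact h i η h1 h2 h3
  · exact i2
  · exact i1

end wdb

/-! ### solutions -/

/-- `g` is a continuous solution of `g + cauT (A g) = p` with `p` entire -/
structure Sol (A : ℂ → Matrix (Fin n) (Fin n) ℂ) (g : ℂ → Fin n → ℂ) : Prop where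
  cont : Continuous g
  eq : ∃ p : ℂ → Fin n → ℂ, Differentiable ℂ p ∧ ∀ z, g z + cauT (mv A g) z = p z

variable {A : ℂ → Matrix (Fin n) (Fin n) ℂ} (hA : Adm A)

include hA

theorem integrableOn_mv {g : ℂ → Fin n → ℂ} (hg : Continuous g) :
    IntegrableOn (mv A g) (ball 0 1) :=
  ((hA.continuous_mv hg).continuousOn.integrableOn_compact
    (isCompact_closedBall (0 : ℂ) 1)).mono_set ball_subset_closedBall

theorem Sol.add {g h : ℂ → Fin n → ℂ} (hg : Sol A g) (hh : Sol A h) :
    Sol A (fun z => g z + h z) := by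
  obtain ⟨p, hp, hp'⟩ := hg.eq
  obtain ⟨q, hq, hq'⟩ := hh.eq
  refine ⟨hg.cont.add hh.cont, fun z => p z + q z, hp.add hq, fun z => ?_⟩
  change _ = p z + q z
  rw [cauT_mv_add hA hg.cont hh.cont, ← hp' z, ← hq' z]
  abel

omit hA in
theorem Sol.smul (c : ℂ) {g : ℂ → Fin n → ℂ} (hg : Sol A g) : Sol A (fun z => c • g z) := by
  obtain ⟨p, hp, hp'⟩ := hg.eq
  refine ⟨hg.cont.const_smul c, fun z => c • p z, hp.const_smul c, fun z => ?_⟩
  rw [cauT_mv_smul, ← smul_add, hp' z]

omit hA in
theorem Sol.zero : Sol A (fun _ => 0) := by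
  refine ⟨continuous_const, fun _ => 0, differentiable_const _, fun z => ?_⟩
  have : mv A (fun _ => 0) = fun _ => 0 := by
    funext w
    simp [mv]
  rw [this, cauT_zero, add_zero]

theorem Sol.sum {ι : Type*} (s : Finset ι) (c : ι → ℂ) (G : ι → ℂ → Fin n → ℂ)
    (h : ∀ i ∈ s, Sol A (G i)) : Sol A (fun z => ∑ i ∈ s, c i • G i z) := by
  classical
  induction s using Finset.induction_on with
  | empty => simpa using Sol.zero
  | insert a s ha ih =>
    simp only [Finset.sum_insert ha]
    exact Sol.add hA ((h a (Finset.mem_insert_self a s)).smul (c a))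
      (ih fun i hi => h i (Finset.mem_insert_of_mem hi))

theorem Sol.wdb {g : ℂ → Fin n → ℂ} (hg : Sol A g) : WDb univ g (fun z => -mv A g z) := by
  obtain ⟨p, hp, hp'⟩ := hg.eq
  have h1 : WDb univ p fun _ => 0 := WDb.of_holo isOpen_univ hp.differentiableOn
  have h2 := wdb_cauT_univ (integrableOn_mv hA hg.cont)
  have h3 : (ball (0 : ℂ) 1).indicator (mv A g) = mv A g := by
    refine indicator_eq_self.2 fun w hw => ?_
    by_contra hcon
    exact hw (hA.mv_zero g hcon)
  rw [h3] at h2
  have hc := hA.continuous_mv hg.cont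
  have h4 := wdb_sub isOpen_univ hp.continuous.continuousOn continuousOn_const
    (continuous_cauT_mv hA hg.cont).continuousOn hc.continuousOn h1 h2
  refine h4.congr (fun z _ => ?_) fun z _ => ?_
  · simp only
    rw [← hp' z, add_sub_cancel_right]
  · simp only [zero_sub]

/-- the determinant of a tuple of solutions -/
def dt (G : Fin n → ℂ → Fin n → ℂ) (z : ℂ) : ℂ := (Matrix.of fun j => G j z).det

/-- the trace gauge -/
def Ex (A : ℂ → Matrix (Fin n) (Fin n) ℂ) (z : ℂ) : ℂ :=
  Complex.exp (cauT (fun w => (A w).trace) z)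

omit hA in
theorem Ex_ne_zero (z : ℂ) : Ex A z ≠ 0 := Complex.exp_ne_zero _

omit hA in
theorem continuous_dt {G : Fin n → ℂ → Fin n → ℂ} (hG : ∀ j, Continuous (G j)) :
    Continuous (dt G) := by
  unfold dt
  refine Continuous.matrix_det ?_
  exact continuous_pi fun j => hG j

theorem wdb_dt {G : Fin n → ℂ → Fin n → ℂ} (hG : ∀ j, Sol A (G j)) :
    WDb univ (dt G) fun z => -(A z).trace * dt G z := by
  have hc : ∀ j, Continuous (G j) := fun j => (hG j).cont
  have h1 := wdb_pi isOpen_univ (v := G) (q := fun j z => -mv A (G j) z)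
    (fun j => (hc j).continuousOn) (fun j => (hA.continuous_mv (hc j)).neg.continuousOn)
    fun j => (hG j).wdb hA
  have h2 := h1.comp_holo isOpen_univ (v := fun z j => G j z)
    (q := fun z j => -mv A (G j) z) (continuous_pi hc).continuousOn
    (continuous_pi fun j => (hA.continuous_mv (hc j)).neg).continuousOn isOpen_univ
    (Φ := detC n) (detC n).contDiff.contDiffOn fun z _ => trivial
  refine h2.congr (fun z _ => rfl) fun z _ => ?_
  simp only
  rw [fderiv_detC]
  have h3 : ∀ i, ((Matrix.of fun j => G j z).updateRow i (-mv A (G i) z)).det =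
      ((Matrix.of fun j => G j z).updateRow i ((-A z) *ᵥ (Matrix.of fun j => G j z) i)).det := by
    intro i
    rw [Matrix.neg_mulVec]
    rfl
  refine (Finset.sum_congr rfl fun i _ => h3 i).trans ?_
  rw [sum_det_updateRow, Matrix.trace_neg]
  rfl

theorem continuous_trace : Continuous fun w => (A w).trace :=
  hA.cont.matrix_trace

theorem cauT_trace : Continuous (cauT fun w => (A w).trace) ∧
    WDb univ (cauT fun w => (A w).trace) fun w => (A w).trace := by
  have hc := continuous_trace hA
  obtain ⟨C, hC⟩ := (isCompact_closedBall (0 : ℂ) 1).exists_bound_of_continuousOn hc.continuousOn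
  have hwb : WB 0 C fun w => (A w).trace :=
    WB.of_continuousOn le_rfl hc.continuousOn fun w hw => hC w (ball_subset_closedBall hw)
  refine ⟨hwb.continuous_cauT le_rfl zero_lt_one, ?_⟩
  have h2 := wdb_cauT_univ (hwb.integrableOn le_rfl zero_lt_one)
  have h3 : (ball (0 : ℂ) 1).indicator (fun w => (A w).trace) = fun w => (A w).trace := by
    refine indicator_eq_self.2 fun w hw => ?_
    by_contra hcon
    apply hw
    change (A w).trace = 0
    rw [hA.zero w hcon, Matrix.trace_zero]
  rwa [h3] at h2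

theorem continuous_Ex : Continuous (Ex A) :=
  Complex.continuous_exp.comp (cauT_trace hA).1

/-- **the gauged determinant is entire** -/
theorem differentiable_dt {G : Fin n → ℂ → Fin n → ℂ} (hG : ∀ j, Sol A (G j)) :
    Differentiable ℂ fun z => dt G z * Ex A z := by
  have hc : ∀ j, Continuous (G j) := fun j => (hG j).cont
  have hd := continuous_dt hc
  have ht := continuous_trace hA
  obtain ⟨hT, hTw⟩ := cauT_trace hA
  have h1 := wdb_exp isOpen_univ hT.continuousOn ht.continuousOn hTw
  have h2 := wdb_mul isOpen_univ (v := dt G) (q := fun z => -(A z).trace * dt G z) (w := Ex A)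
    (r := fun z => Ex A z * (A z).trace) hd.continuousOn (ht.neg.mul hd).continuousOn
    (continuous_Ex hA).continuousOn ((continuous_Ex hA).mul ht).continuousOn (wdb_dt hA hG) h1
  have h3 : WDb univ (fun z => dt G z * Ex A z) fun _ => 0 := by
    refine h2.congr (fun _ _ => rfl) fun z _ => ?_
    simp only
    ring
  have h4 := h3.holo isOpen_univ (hd.mul (continuous_Ex hA)).continuousOn
  exact fun z => (h4 z trivial).differentiableAt univ_mem

end Vale.Agent.P272.DA
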