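import Vale.Agent.P272.DA.Det

/-!
# P272, frames: behaviour at infinity, division by `z - z0`, a nondegenerate tuple of solutions
-/

open MeasureTheory Set Metric Filter Topology Bornology
open scoped BoundedContinuousFunction Matrix Polynomial

noncomputable section

namespace Vale.Agent.P272.DA

open Vale.Agent.P272.CT

variable {n : ℕ}

/-! ### the Cauchy transform at infinity -/

theorem cauT_tendsto {E : Type*} [NormedAddCommGroup E] [NormedSpace ℂ E] {F : ℂ → E}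
    (hF : IntegrableOn F (ball 0 1)) : Tendsto (cauT F) (cobounded ℂ) (𝓝 0) := by
  have h1 : Tendsto (fun z : ℂ => Real.pi⁻¹ * ((‖z‖ - 1)⁻¹ * ∫ w in ball (0 : ℂ) 1, ‖F w‖))
      (cobounded ℂ) (𝓝 (Real.pi⁻¹ * (0 * ∫ w in ball (0 : ℂ) 1, ‖F w‖))) := by
    refine (Tendsto.mul_const _ ?_).const_mul _
    exact tendsto_inv_atTop_zero.comp
      (tendsto_atTop_add_const_right _ _ tendsto_norm_cobounded_atTop)
  rw [zero_mul, mul_zero] at h1
  refine squeeze_zero_norm' ?_ h1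
  filter_upwards [tendsto_norm_cobounded_atTop.eventually (eventually_gt_atTop 1)] with z hz
  have h3 : 0 < ‖z‖ - 1 := by linarith
  rw [cauT, norm_smul, norm_inv, Complex.norm_real, Real.norm_of_nonneg Real.pi_pos.le]
  refine mul_le_mul_of_nonneg_left ?_ (by positivity)
  rw [← integral_const_mul]
  refine norm_integral_le_of_norm_le (hF.norm.const_mul _) ?_
  filter_upwards [ae_restrict_mem measurableSet_ball] with w hw
  rw [mem_ball_zero_iff] at hw
  rw [norm_smul, norm_inv]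
  refine mul_le_mul_of_nonneg_right (inv_anti₀ h3 ?_) (norm_nonneg _)
  have := norm_sub_norm_le z w
  linarith

theorem cauT_congr_ae {E : Type*} [NormedAddCommGroup E] [NormedSpace ℂ E] {F G : ℂ → E}
    (h : ∀ᵐ w ∂(volume.restrict (ball (0 : ℂ) 1)), F w = G w) : cauT F = cauT G := by
  funext z
  rw [cauT, cauT]
  congr 1
  refine integral_congr_ae ?_
  filter_upwards [h] with w hw
  rw [hw]

theorem poly_lower {q : ℂ[X]} (hq : q ≠ 0) :
    ∃ c : ℝ, 0 < c ∧ ∀ᶠ z in cobounded ℂ, c ≤ ‖q.eval z‖ := by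
  by_cases hd : 0 < q.degree
  · refine ⟨1, one_pos, ?_⟩
    have h1 := q.tendsto_norm_atTop hd (l := cobounded ℂ) (z := id) tendsto_norm_cobounded_atTop
    exact h1.eventually (eventually_ge_atTop 1)
  · have h1 : q.degree ≤ 0 := not_lt.1 hd
    have h2 := Polynomial.eq_C_of_degree_le_zero h1
    have h3 : q.coeff 0 ≠ 0 := by
      intro h4
      apply hq
      rw [h2, h4, Polynomial.C_0]
    refine ⟨‖q.coeff 0‖, norm_pos_iff.2 h3, Eventually.of_forall fun z => ?_⟩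
    rw [h2]
    simp

theorem exists_tuple {A : ℂ → Matrix (Fin n) (Fin n) ℂ} (hA : Adm A) :
    ∃ G : Fin n → ℂ → Fin n → ℂ, (∀ j, Sol A (G j)) ∧ ∃ z, dt G z ≠ 0 := by
  choose q g hq hg heq using exists_poly hA
  refine ⟨g, fun j => ⟨hg j, fun z => Pi.single j ((q j).eval z), ?_, heq j⟩, ?_⟩
  · rw [differentiable_pi]
    intro i
    by_cases hij : i = j
    · subst hij
      simp only [Pi.single_eq_same]
      exact (q i).differentiable
    · have : ∀ z, (Pi.single j ((q j).eval z) : Fin n → ℂ) i = 0 := fun z =>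
        Pi.single_eq_of_ne hij _
      simp only [this]
      exact differentiable_const _
  have hlim : ∀ j, Tendsto (fun z => ((q j).eval z)⁻¹ • g j z) (cobounded ℂ)
      (𝓝 (Pi.single j 1)) := by
    intro j
    obtain ⟨c, hc, hev⟩ := poly_lower (hq j)
    have h1 := cauT_tendsto (integrableOn_mv hA (hg j))
    have h2 : Tendsto (fun z => ((q j).eval z)⁻¹ • cauT (mv A (g j)) z) (cobounded ℂ) (𝓝 0) := by
      have h3 : Tendsto (fun z => c⁻¹ * ‖cauT (mv A (g j)) z‖) (cobounded ℂ) (𝓝 0) := by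
        simpa using (tendsto_zero_iff_norm_tendsto_zero.1 h1).const_mul c⁻¹
      refine squeeze_zero_norm' ?_ h3
      filter_upwards [hev] with z hz
      rw [norm_smul, norm_inv]
      exact mul_le_mul_of_nonneg_right (inv_anti₀ hc hz) (norm_nonneg _)
    have h4 : (fun z => (Pi.single j 1 : Fin n → ℂ) - ((q j).eval z)⁻¹ • cauT (mv A (g j)) z)
        =ᶠ[cobounded ℂ] fun z => ((q j).eval z)⁻¹ • g j z := by
      filter_upwards [hev] with z hz
      have h5 : (q j).eval z ≠ 0 := by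
        intro h6
        rw [h6, norm_zero] at hz
        linarith
      have h7 : g j z = Pi.single j ((q j).eval z) - cauT (mv A (g j)) z :=
        eq_sub_of_add_eq (heq j z)
      rw [h7, smul_sub, ← Pi.single_smul, smul_eq_mul, inv_mul_cancel₀ h5]
    refine Tendsto.congr' h4 ?_
    simpa using tendsto_const_nhds.sub h2
  have hN : Tendsto (fun z => Matrix.of fun j => ((q j).eval z)⁻¹ • g j z) (cobounded ℂ)
      (𝓝 (1 : Matrix (Fin n) (Fin n) ℂ)) := by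
    have h1 : Tendsto (fun z j => ((q j).eval z)⁻¹ • g j z) (cobounded ℂ)
        (𝓝 fun j => (Pi.single j 1 : Fin n → ℂ)) := tendsto_pi_nhds.2 hlim
    have h2 : (1 : Matrix (Fin n) (Fin n) ℂ) = Matrix.of fun j => Pi.single j 1 := by
      ext i j
      rw [Matrix.one_apply, Matrix.of_apply, Pi.single_apply]
      simp only [eq_comm]
    rw [h2]
    exact h1
  have hdet : Tendsto (fun z => (Matrix.of fun j => ((q j).eval z)⁻¹ • g j z).det) (cobounded ℂ)
      (𝓝 1) := by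
    have h1 : Continuous fun M : Matrix (Fin n) (Fin n) ℂ => M.det :=
      Continuous.matrix_det continuous_id
    have h2 := (h1.tendsto 1).comp hN
    rwa [Matrix.det_one] at h2
  obtain ⟨z, hz⟩ := (hdet.eventually (isOpen_ne.mem_nhds one_ne_zero)).exists
  refine ⟨z, fun h0 => hz ?_⟩
  have h1 : (Matrix.of fun j => ((q j).eval z)⁻¹ • g j z).det =
      (∏ i, ((q i).eval z)⁻¹) * dt g z := by
    unfold dt
    rw [← Matrix.det_mul_column]
    rfl
  rw [h1, h0, mul_zero]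

/-! ### a kernel estimate -/

theorem rpow_mul_le {x y a b : ℝ} (hx : 0 < x) (hy : 0 < y) (ha : 0 ≤ a) (hb : 0 ≤ b) :
    x ^ (-a) * y ^ (-b) ≤ x ^ (-(a + b)) + y ^ (-(a + b)) := rpow_split hx hy ha hb

section kern

variable {E : Type*} [NormedAddCommGroup E] [NormedSpace ℂ E]

theorem ae_ne (x : ℂ) : ∀ᵐ w : ℂ ∂(volume.restrict (ball (0 : ℂ) 1)), w ≠ x := by
  refine ae_restrict_of_ae ?_
  rw [ae_iff]; simp

theorem intK {β : ℝ} (h1 : 1 ≤ β) (h2 : β < 2) (z : ℂ) :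
    IntegrableOn (fun w : ℂ => ‖z - w‖ ^ (-β)) (ball (0 : ℂ) 1) := by
  have := integrableOn_kernel (α := 0) (β := β) le_rfl h1 (by linarith) z
  simpa using this

theorem intK_le {β : ℝ} (h1 : 1 ≤ β) (h2 : β < 2) (z : ℂ) :
    ∫ w in ball (0 : ℂ) 1, ‖z - w‖ ^ (-β) ≤ cst 0 β := by
  have := integral_kernel_le (α := 0) (β := β) le_rfl h1 (by linarith) z
  simpa using this

variable {F : ℂ → E} {z0 : ℂ} {C : ℝ}

theorem integrable_sing (hm : AEStronglyMeasurable F (volume.restrict (ball (0 : ℂ) 1)))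
    (hb : ∀ w ∈ ball (0 : ℂ) 1, ‖F w‖ ≤ C * ‖z0 - w‖ ^ (-(1 / 2) : ℝ)) (z : ℂ) :
    IntegrableOn (fun w => (z - w)⁻¹ • F w) (ball (0 : ℂ) 1) := by
  by_cases hC : 0 ≤ C
  swap
  · have h0 : ∀ w ∈ ball (0 : ℂ) 1, F w = 0 := fun w hw => by
      have h1 := hb w hw
      have h2 : C * ‖z0 - w‖ ^ (-(1 / 2) : ℝ) ≤ 0 :=
        mul_nonpos_of_nonpos_of_nonneg (not_le.1 hC).le (Real.rpow_nonneg (norm_nonneg _) _)
      exact norm_le_zero_iff.1 (h1.trans h2)
    refine (integrableOn_zero (s := ball (0 : ℂ) 1)).congr_fun (fun w hw => ?_) measurableSet_ball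
    simp [h0 w hw]
  have h1 := ((intK (β := 3 / 2) (by norm_num) (by norm_num) z).add
    (intK (β := 3 / 2) (by norm_num) (by norm_num) z0)).const_mul C
  refine Integrable.mono' h1 ?_ ?_
  · exact (by fun_prop : Measurable (fun w : ℂ => (z - w)⁻¹)).aestronglyMeasurable.smul hm
  · filter_upwards [ae_restrict_mem measurableSet_ball, ae_ne z, ae_ne z0] with w hw hwz hwz0
    have hu : 0 < ‖z - w‖ := norm_pos_iff.2 (sub_ne_zero.2 (Ne.symm hwz))
    have hv : 0 < ‖z0 - w‖ := norm_pos_iff.2 (sub_ne_zero.2 (Ne.symm hwz0))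
    have h2 := rpow_mul_le hu hv (a := 1) (b := 1 / 2) (by norm_num) (by norm_num)
    rw [Real.rpow_neg_one] at h2
    have h4 : (1 : ℝ) + 1 / 2 = 3 / 2 := by norm_num
    rw [h4] at h2
    rw [norm_smul, norm_inv, Pi.add_apply]
    calc ‖z - w‖⁻¹ * ‖F w‖ ≤ ‖z - w‖⁻¹ * (C * ‖z0 - w‖ ^ (-(1 / 2) : ℝ)) := by
          have := hb w hw
          gcongr
      _ = C * (‖z - w‖⁻¹ * ‖z0 - w‖ ^ (-(1 / 2) : ℝ)) := by ring
      _ ≤ _ := by gcongr

theorem cauT_sing (hm : AEStronglyMeasurable F (volume.restrict (ball (0 : ℂ) 1))) (hC : 0 ≤ C)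
    (hb : ∀ w ∈ ball (0 : ℂ) 1, ‖F w‖ ≤ C * ‖z0 - w‖ ^ (-(1 / 2) : ℝ)) (z : ℂ) :
    ‖cauT F z - cauT F z0‖ ≤
      Real.pi⁻¹ * (6 * C * cst 0 (7 / 4) * ‖z - z0‖ ^ (1 / 4 : ℝ)) := by
  have hI := integrable_sing hm hb z
  have hI' := integrable_sing hm hb z0
  have hK := intK (β := 7 / 4) (by norm_num) (by norm_num) z
  have hK' := intK (β := 7 / 4) (by norm_num) (by norm_num) z0
  have h1 : cauT F z - cauT F z0 = ((Real.pi : ℝ) : ℂ)⁻¹ •
      ∫ w in ball (0 : ℂ) 1, ((z - w)⁻¹ - (z0 - w)⁻¹) • F w := by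
    rw [cauT, cauT, ← smul_sub, ← integral_sub hI hI']
    congr 1
    refine integral_congr_ae (Eventually.of_forall fun w => ?_)
    simp only
    rw [sub_smul]
  rw [h1, norm_smul, norm_inv, Complex.norm_real, Real.norm_of_nonneg Real.pi_pos.le]
  refine mul_le_mul_of_nonneg_left ?_ (by positivity)
  calc ‖∫ w in ball (0 : ℂ) 1, ((z - w)⁻¹ - (z0 - w)⁻¹) • F w‖
      ≤ ∫ w in ball (0 : ℂ) 1, 2 * ‖z - z0‖ ^ (1 / 4 : ℝ) * C *
          (‖z - w‖ ^ (-(7 / 4) : ℝ) + 2 * ‖z0 - w‖ ^ (-(7 / 4) : ℝ)) := by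
        refine norm_integral_le_of_norm_le ((hK.add (hK'.const_mul 2)).const_mul _) ?_
        filter_upwards [ae_restrict_mem measurableSet_ball, ae_ne z, ae_ne z0] with w hw hwz hwz0
        have hu : 0 < ‖z - w‖ := norm_pos_iff.2 (sub_ne_zero.2 (Ne.symm hwz))
        have hv : 0 < ‖z0 - w‖ := norm_pos_iff.2 (sub_ne_zero.2 (Ne.symm hwz0))
        have e1 := inv_sub_inv_le (h := 1 / 4) (sub_ne_zero.2 (Ne.symm hwz))
          (sub_ne_zero.2 (Ne.symm hwz0)) (by norm_num) (by norm_num)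
        rw [sub_sub_sub_cancel_right] at e1
        have e2 := hb w hw
        have h45 : (1 : ℝ) + 1 / 4 = 5 / 4 := by norm_num
        rw [h45] at e1
        have e3 := rpow_mul_le hu hv (a := 5 / 4) (b := 1 / 2) (by norm_num) (by norm_num)
        have h74 : (5 : ℝ) / 4 + 1 / 2 = 7 / 4 := by norm_num
        rw [h74] at e3
        have e4 : ‖z0 - w‖ ^ (-(5 / 4) : ℝ) * ‖z0 - w‖ ^ (-(1 / 2) : ℝ) =
            ‖z0 - w‖ ^ (-(7 / 4) : ℝ) := by
          rw [← Real.rpow_add hv]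
          norm_num
        rw [norm_smul]
        calc ‖(z - w)⁻¹ - (z0 - w)⁻¹‖ * ‖F w‖
            ≤ (2 * ‖z - z0‖ ^ (1 / 4 : ℝ) * (‖z - w‖ ^ (-(5 / 4) : ℝ) +
                ‖z0 - w‖ ^ (-(5 / 4) : ℝ))) * (C * ‖z0 - w‖ ^ (-(1 / 2) : ℝ)) := by gcongr
          _ = 2 * ‖z - z0‖ ^ (1 / 4 : ℝ) * C * (‖z - w‖ ^ (-(5 / 4) : ℝ) *
                ‖z0 - w‖ ^ (-(1 / 2) : ℝ) + ‖z0 - w‖ ^ (-(5 / 4) : ℝ) *
                ‖z0 - w‖ ^ (-(1 / 2) : ℝ)) := by ring
          _ ≤ 2 * ‖z - z0‖ ^ (1 / 4 : ℝ) * C * ((‖z - w‖ ^ (-(7 / 4) : ℝ) +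
                ‖z0 - w‖ ^ (-(7 / 4) : ℝ)) + ‖z0 - w‖ ^ (-(7 / 4) : ℝ)) := by
              rw [e4]
              gcongr
          _ = _ := by ring
    _ = 2 * ‖z - z0‖ ^ (1 / 4 : ℝ) * C * ((∫ w in ball (0 : ℂ) 1, ‖z - w‖ ^ (-(7 / 4) : ℝ)) +
          2 * ∫ w in ball (0 : ℂ) 1, ‖z0 - w‖ ^ (-(7 / 4) : ℝ)) := by
        rw [integral_const_mul, integral_add hK (hK'.const_mul 2), integral_const_mul]
    _ ≤ 2 * ‖z - z0‖ ^ (1 / 4 : ℝ) * C * (cst 0 (7 / 4) + 2 * cst 0 (7 / 4)) := by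
        have g1 := intK_le (β := 7 / 4) (by norm_num) (by norm_num) z
        have g2 := intK_le (β := 7 / 4) (by norm_num) (by norm_num) z0
        gcongr
    _ = _ := by ring

theorem continuousAt_cauT_sing (hm : AEStronglyMeasurable F (volume.restrict (ball (0 : ℂ) 1)))
    (hC : 0 ≤ C) (hb : ∀ w ∈ ball (0 : ℂ) 1, ‖F w‖ ≤ C * ‖z0 - w‖ ^ (-(1 / 2) : ℝ)) :
    ContinuousAt (cauT F) z0 := by
  rw [ContinuousAt, tendsto_iff_norm_sub_tendsto_zero]
  have h2 : Tendsto (fun z : ℂ => Real.pi⁻¹ * (6 * C * cst 0 (7 / 4) *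
      ‖z - z0‖ ^ (1 / 4 : ℝ))) (𝓝 z0) (𝓝 0) := by
    have h3 : Continuous (fun z : ℂ => Real.pi⁻¹ * (6 * C * cst 0 (7 / 4) *
        ‖z - z0‖ ^ (1 / 4 : ℝ))) := by
      refine continuous_const.mul (continuous_const.mul
        (Continuous.rpow_const (by fun_prop) fun _ => Or.inr (by norm_num)))
    have h4 := h3.tendsto z0
    have h5 : (0 : ℝ) ^ (1 / 4 : ℝ) = 0 := Real.zero_rpow (by norm_num)
    simpa [h5] using h4
  exact squeeze_zero (fun _ => norm_nonneg _) (cauT_sing hm hC hb) h2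

end kern

end Vale.Agent.P272.DA
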