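import Vale.Agent.P272.DA.Iter

/-!
# P272, step (3): holomorphic frames, abstract form

`a` continuous on the closed disc. There is a continuous matrix function `g`, invertible on the
closed disc, with `dbar g = -a g` weakly on the open disc.
-/

open MeasureTheory Set Metric Filter Topology Bornology
open scoped Matrix

noncomputable section

namespace Vale.Agent.P272.DA

open Vale.Agent.P272.CT

variable {n : ℕ}

theorem wdb_scale {E : Type*} [NormedAddCommGroup E] [NormedSpace ℂ E] [CompleteSpace E]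
    {v q : ℂ → E} (hv : Continuous v) (hq : Continuous q) (h : WDb univ v q) :
    WDb univ (fun z => v ((1 / 2 : ℂ) * z)) fun z => (1 / 2 : ℂ) • q ((1 / 2 : ℂ) * z) := by
  have hm : Continuous fun z : ℂ => (1 / 2 : ℂ) * z := by fun_prop
  refine WDb.of_approx isOpen_univ (hv.comp hm).continuousOn
    ((hq.comp hm).const_smul (1 / 2 : ℂ)).continuousOn fun K hK _ ε hε => ?_
  obtain ⟨v', hv', hap⟩ := h.approx isOpen_univ hv.continuousOn hq.continuousOn
    (hK.image hm) (subset_univ _) hε
  refine ⟨fun z => v' ((1 / 2 : ℂ) * z), univ, isOpen_univ, subset_univ _, ?_, fun z hz => ?_⟩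
  · refine ContDiff.contDiffOn ?_
    refine (hv'.of_le (by simp)).comp ?_
    exact contDiff_const.mul contDiff_id
  · have h1 := hap _ (mem_image_of_mem _ hz)
    have h2 : dbarV (fun z => v' ((1 / 2 : ℂ) * z)) z =
        (1 / 2 : ℂ) • dbarV v' ((1 / 2 : ℂ) * z) := by
      have h3 : HasFDerivAt (fun z : ℂ => (1 / 2 : ℂ) * z)
          ((1 / 2 : ℂ) • ContinuousLinearMap.id ℝ ℂ) z := by
        have := (hasFDerivAt_id (𝕜 := ℝ) z).const_mul (1 / 2 : ℂ)
        exact this
      have h4 := (((hv'.differentiable (by simp)) ((1 / 2 : ℂ) * z)).hasFDerivAt.comp z h3).fderiv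
      have h5 : ∀ w : ℂ, fderiv ℝ (fun z => v' ((1 / 2 : ℂ) * z)) z w =
          (1 / 2 : ℝ) • fderiv ℝ v' ((1 / 2 : ℂ) * z) w := by
        intro w
        have h6 : fderiv ℝ (fun z => v' ((1 / 2 : ℂ) * z)) z = (fderiv ℝ v' ((1 / 2 : ℂ) * z)).comp
          ((1 / 2 : ℂ) • ContinuousLinearMap.id ℝ ℂ) := h4
        rw [h6, ContinuousLinearMap.comp_apply, ← map_smul]
        congr 1
        simp [Complex.real_smul]
      unfold dbarV
      rw [h5, h5]
      have e1 : ∀ x : E, (1 / 2 : ℝ) • x = (1 / 2 : ℂ) • x := fun x => by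
        rw [← Complex.coe_smul]
        congr 1
        push_cast
        rfl
      rw [e1, e1, smul_comm Complex.I, ← smul_add]
    refine ⟨h1.1.le, ?_⟩
    rw [h2, ← smul_sub, norm_smul]
    have h3 : ‖(1 / 2 : ℂ)‖ ≤ 1 := by
      rw [norm_div, norm_one]
      norm_num
    exact (mul_le_of_le_one_left (norm_nonneg _) h3).trans h1.2.1.le

/-- the retraction onto the closed unit disc -/
def ret (z : ℂ) : ℂ := ((max 1 ‖z‖ : ℝ) : ℂ)⁻¹ * z

theorem continuous_ret : Continuous ret := by
  unfold ret
  refine Continuous.mul ?_ continuous_id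
  refine Continuous.inv₀ (by fun_prop) fun z => ?_
  have : (0 : ℝ) < max 1 ‖z‖ := lt_max_of_lt_left one_pos
  exact_mod_cast this.ne'

theorem ret_mem (z : ℂ) : ret z ∈ closedBall (0 : ℂ) 1 := by
  unfold ret
  have h : (0 : ℝ) < max 1 ‖z‖ := lt_max_of_lt_left one_pos
  rw [mem_closedBall_zero_iff, norm_mul, norm_inv, Complex.norm_real, Real.norm_of_nonneg h.le,
    inv_mul_le_iff₀ h, mul_one]
  exact le_max_right _ _

theorem ret_eq {z : ℂ} (hz : ‖z‖ ≤ 1) : ret z = z := by
  unfold ret
  rw [max_eq_left hz]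
  simp

/-- **FRAME.** -/
theorem frame (a : ℂ → Matrix (Fin n) (Fin n) ℂ) (ha : ContinuousOn a (closedBall 0 1)) :
    ∃ g : ℂ → Matrix (Fin n) (Fin n) ℂ, Continuous g ∧
      (∀ z ∈ closedBall (0 : ℂ) 1, (g z).det ≠ 0) ∧
      ∀ j, WDb (ball 0 1) (fun z i => g z i j) fun z i => -(a z * g z) i j := by
  set A : ℂ → Matrix (Fin n) (Fin n) ℂ := fun z => (2 * chi (2 * z) : ℂ) • a (ret (2 * z)) with hAdef
  have hA : Adm A := by
    refine ⟨?_, fun w hw => ?_⟩
    · have h1 : Continuous fun z : ℂ => a (ret (2 * z)) :=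
        ha.comp_continuous (continuous_ret.comp (by fun_prop)) fun z => ret_mem _
      have h2 : Continuous fun z : ℂ => (2 * chi (2 * z) : ℂ) :=
        continuous_const.mul (Complex.continuous_ofReal.comp (continuous_chi.comp (by fun_prop)))
      exact h2.smul h1
    · rw [mem_ball_zero_iff, not_lt] at hw
      have h1 : chi (2 * w) = 0 := by
        refine chi_zero ?_
        rw [norm_mul]
        norm_num
        linarith
      simp only [hAdef, h1]
      simp
  obtain ⟨G, hG, hdt⟩ := exists_frame hA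
  have hhalf : Continuous fun z : ℂ => (1 / 2 : ℂ) * z := by fun_prop
  refine ⟨fun z => (Matrix.of fun j => G j ((1 / 2 : ℂ) * z))ᵀ, ?_, fun z hz => ?_, fun j => ?_⟩
  · refine Continuous.matrix_transpose ?_
    exact continuous_pi fun j => (hG j).cont.comp hhalf
  · rw [Matrix.det_transpose]
    refine hdt _ ?_
    rw [mem_closedBall_zero_iff] at hz ⊢
    rw [norm_mul, norm_div, norm_one]
    norm_num
    linarith
  · have h1 := wdb_scale (v := G j) (q := fun z => -mv A (G j) z) (hG j).cont
      (hA.continuous_mv (hG j).cont).neg ((hG j).wdb hA)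
    refine (h1.mono (subset_univ _)).congr (fun z _ => rfl) fun z hz => ?_
    have hz' : ‖z‖ ≤ 1 := (mem_ball_zero_iff.1 hz).le
    have h2 : (2 : ℂ) * ((1 / 2 : ℂ) * z) = z := by ring
    have h3 : mv A (G j) ((1 / 2 : ℂ) * z) = (2 : ℂ) • (a z *ᵥ G j ((1 / 2 : ℂ) * z)) := by
      simp only [mv, hAdef]
      rw [h2, chi_one hz', ret_eq hz', Matrix.smul_mulVec]
      simp
    simp only
    rw [h3, smul_neg, smul_smul]
    norm_num
    funext i
    simp [Matrix.mul_apply, Matrix.mulVec, dotProduct]

/-- the consumer form: the new frame is holomorphic -/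
theorem frame_holo {a g : ℂ → Matrix (Fin n) (Fin n) ℂ} (ha : ContinuousOn a (ball 0 1))
    (hg : Continuous g)
    (hw : ∀ j, WDb (ball 0 1) (fun z i => g z i j) fun z i => -(a z * g z) i j)
    {Ω : Set ℂ} (hΩ : IsOpen Ω) (hΩD : Ω ⊆ ball 0 1) {b : ℂ → Matrix (Fin n) (Fin n) ℂ}
    (hb : ∀ i j, ContDiffOn ℝ 1 (fun z => b z i j) Ω)
    (hdb : ∀ z ∈ Ω, ∀ i j, dbar (fun z => b z i j) z = (b z * a z) i j) (i k : Fin n) :
    DifferentiableOn ℂ (fun z => (b z * g z) i k) Ω := by
  have hge : ∀ j k, Continuous fun z => g z j k := fun j k => hg.matrix_elem j k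
  have hae : ∀ j k, ContinuousOn (fun z => a z j k) Ω := fun j k => by
    have h1 : ContinuousOn (fun z => a z j) (ball 0 1) := continuousOn_pi.1 ha j
    exact (continuousOn_pi.1 h1 k).mono hΩD
  have hag : ∀ j k, ContinuousOn (fun z => -(a z * g z) j k) Ω := fun j k => by
    simp only [Matrix.mul_apply]
    exact (continuousOn_finsetSum _ fun l _ => (hae j l).mul (hge l k).continuousOn).neg
  have hba : ∀ j k, ContinuousOn (fun z => (b z * a z) j k) Ω := fun j k => by
    simp only [Matrix.mul_apply]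
    exact continuousOn_finsetSum _ fun l _ => (hb j l).continuousOn.mul (hae l k)
  have hgw : ∀ j, WDb Ω (fun z => g z j k) fun z => -(a z * g z) j k := by
    intro j
    have h1 : ContinuousOn (fun z (i : Fin n) => g z i k) Ω :=
      continuousOn_pi.2 fun i => (hge i k).continuousOn
    have h2 : ContinuousOn (fun z (i : Fin n) => -(a z * g z) i k) Ω :=
      continuousOn_pi.2 fun i => hag i k
    exact wdb_clm hΩ h1 h2 ((hw k).mono hΩD)
      (ContinuousLinearMap.proj (R := ℂ) (φ := fun _ : Fin n => ℂ) j)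
  have hterm : ∀ j, WDb Ω (fun z => b z i j * g z j k) fun z =>
      (b z * a z) i j * g z j k + b z i j * (-(a z * g z) j k) := by
    intro j
    have h1 : WDb Ω (fun z => b z i j) fun z => (b z * a z) i j :=
      (WDb.of_contDiffOn hΩ (hb i j)).congr (fun _ _ => rfl) fun z hz => hdb z hz i j
    exact wdb_mul hΩ (hb i j).continuousOn (hba i j) (hge j k).continuousOn (hag j k) h1 (hgw j)
  have hpi := wdb_pi hΩ (v := fun j z => b z i j * g z j k)
    (q := fun j z => (b z * a z) i j * g z j k + b z i j * (-(a z * g z) j k))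
    (fun j => (hb i j).continuousOn.mul (hge j k).continuousOn)
    (fun j => ((hba i j).mul (hge j k).continuousOn).add ((hb i j).continuousOn.mul (hag j k)))
    hterm
  have hsum := wdb_clm hΩ (v := fun z j => b z i j * g z j k)
    (q := fun z j => (b z * a z) i j * g z j k + b z i j * (-(a z * g z) j k))
    (continuousOn_pi.2 fun j => (hb i j).continuousOn.mul (hge j k).continuousOn)
    (continuousOn_pi.2 fun j =>
      ((hba i j).mul (hge j k).continuousOn).add ((hb i j).continuousOn.mul (hag j k))) hpi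
    (∑ j : Fin n, ContinuousLinearMap.proj (R := ℂ) (φ := fun _ : Fin n => ℂ) j)
  have h0 : WDb Ω (fun z => (b z * g z) i k) fun _ => 0 := by
    refine hsum.congr (fun z _ => ?_) fun z _ => ?_
    · simp [Matrix.mul_apply]
    · have e1 : ∑ j, (b z * a z) i j * g z j k = (b z * a z * g z) i k := by
        rw [Matrix.mul_apply]
      have e2 : ∑ j, b z i j * (a z * g z) j k = (b z * (a z * g z)) i k := by
        rw [Matrix.mul_apply]
      simp only [_root_.sum_apply, ContinuousLinearMap.proj_apply]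
      rw [Finset.sum_add_distrib, e1]
      simp only [mul_neg, Finset.sum_neg_distrib]
      rw [e2, Matrix.mul_assoc]
      ring
  refine h0.holo hΩ ?_
  simp only [Matrix.mul_apply]
  exact continuousOn_finsetSum _ fun l _ => (hb i l).continuousOn.mul (hge l k).continuousOn

end Vale.Agent.P272.DA
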