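import Vale.Agent.P272.CT.Cauchy
import Vale.Agent.P272.CT.Weak

/-!
# P272, frames: the linear equation `g + cauT (A g) = q e_j`, `q` a nonzero polynomial

The Fredholm splitting: `cauT (A ·) = S + F` with `‖S‖ ≤ 1/2` and `F` of finite rank.
-/

open MeasureTheory Set Metric Filter Topology
open scoped BoundedContinuousFunction Matrix Polynomial

noncomputable section

namespace Vale.Agent.P272.DA

open Vale.Agent.P272.CT

variable {n : ℕ}

/-- admissible coefficients: continuous on the plane, zero outside the open unit disc -/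
structure Adm (A : ℂ → Matrix (Fin n) (Fin n) ℂ) : Prop where
  cont : Continuous A
  zero : ∀ w, w ∉ ball (0 : ℂ) 1 → A w = 0

/-- the product `A g` -/
def mv (A : ℂ → Matrix (Fin n) (Fin n) ℂ) (g : ℂ → Fin n → ℂ) (w : ℂ) : Fin n → ℂ := A w *ᵥ g w

theorem mulVec_norm_le (M : Matrix (Fin n) (Fin n) ℂ) (v : Fin n → ℂ) :
    ‖M *ᵥ v‖ ≤ (∑ i, ∑ j, ‖M i j‖) * ‖v‖ := by
  have h0 : 0 ≤ (∑ i, ∑ j, ‖M i j‖) * ‖v‖ := by positivity
  rw [pi_norm_le_iff_of_nonneg h0]
  intro i
  calc ‖(M *ᵥ v) i‖ = ‖∑ j, M i j * v j‖ := rfl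
    _ ≤ ∑ j, ‖M i j * v j‖ := norm_sum_le _ _
    _ ≤ ∑ j, ‖M i j‖ * ‖v‖ := by
        refine Finset.sum_le_sum fun j _ => ?_
        rw [norm_mul]
        exact mul_le_mul_of_nonneg_left (norm_le_pi_norm v j) (norm_nonneg _)
    _ = (∑ j, ‖M i j‖) * ‖v‖ := by rw [Finset.sum_mul]
    _ ≤ _ := by
        refine mul_le_mul_of_nonneg_right ?_ (norm_nonneg _)
        exact Finset.single_le_sum (f := fun i => ∑ j, ‖M i j‖)
          (fun i _ => Finset.sum_nonneg fun j _ => norm_nonneg _) (Finset.mem_univ i)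

namespace Adm

variable {A : ℂ → Matrix (Fin n) (Fin n) ℂ} (hA : Adm A)

include hA

theorem exists_bound : ∃ B : ℝ, 0 ≤ B ∧ ∀ w v, ‖A w *ᵥ v‖ ≤ B * ‖v‖ := by
  have hc : Continuous fun w => ∑ i, ∑ j, ‖A w i j‖ := by
    refine continuous_finsetSum _ fun i _ => continuous_finsetSum _ fun j _ => ?_
    exact (hA.cont.matrix_elem i j).norm
  obtain ⟨B, hB⟩ := (isCompact_closedBall (0 : ℂ) 1).bddAbove_image hc.continuousOn
  have hB' : ∀ w ∈ closedBall (0 : ℂ) 1, ∑ i, ∑ j, ‖A w i j‖ ≤ B := fun w hw =>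
    hB (mem_image_of_mem _ hw)
  refine ⟨max B 0, le_max_right _ _, fun w v => ?_⟩
  by_cases hw : w ∈ ball (0 : ℂ) 1
  · refine (mulVec_norm_le _ _).trans (mul_le_mul_of_nonneg_right ?_ (norm_nonneg _))
    exact (hB' w (ball_subset_closedBall hw)).trans (le_max_left _ _)
  · rw [hA.zero w hw, Matrix.zero_mulVec, norm_zero]
    positivity

theorem continuous_mv {g : ℂ → Fin n → ℂ} (hg : Continuous g) : Continuous (mv A g) := by
  unfold mv
  exact hA.cont.matrix_mulVec hg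

theorem mv_zero (g : ℂ → Fin n → ℂ) {w : ℂ} (hw : w ∉ ball (0 : ℂ) 1) : mv A g w = 0 := by
  unfold mv
  rw [hA.zero w hw, Matrix.zero_mulVec]

end Adm

theorem mv_add (A : ℂ → Matrix (Fin n) (Fin n) ℂ) (g h : ℂ → Fin n → ℂ) :
    mv A (fun w => g w + h w) = fun w => mv A g w + mv A h w := by
  funext w
  simp only [mv, Matrix.mulVec_add]

theorem mv_smul (A : ℂ → Matrix (Fin n) (Fin n) ℂ) (c : ℂ) (g : ℂ → Fin n → ℂ) :
    mv A (fun w => c • g w) = fun w => c • mv A g w := by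
  funext w
  simp only [mv, Matrix.mulVec_smul]

/-- a fine partition of unity on a disc -/
theorem exists_pou {δ : ℝ} (hδ : 0 < δ) (R : ℝ) : ∃ (t : Finset ℂ) (φ : ℂ → ℂ → ℝ),
    (∀ i, Continuous (φ i)) ∧ (∀ i z, 0 ≤ φ i z) ∧ (∀ i z, φ i z ≠ 0 → ‖z - i‖ < δ) ∧
    ∀ z ∈ closedBall (0 : ℂ) R, ∑ i ∈ t, φ i z = 1 := by
  obtain ⟨s, -, hs, hcov⟩ := (isCompact_closedBall (0 : ℂ) R).finite_cover_balls
    (half_pos hδ)
  set t : Finset ℂ := hs.toFinset with ht
  set Ψ : ℂ → ℝ := fun z => ∑ j ∈ t, max 0 (δ - ‖z - j‖) with hΨ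
  have hΨc : Continuous Ψ := by
    refine continuous_finsetSum _ fun j _ => ?_
    fun_prop
  have hm : ∀ z, 0 < max (δ / 2) (Ψ z) := fun z => lt_max_of_lt_left (half_pos hδ)
  refine ⟨t, fun i z => max 0 (δ - ‖z - i‖) / max (δ / 2) (Ψ z), ?_, ?_, ?_, ?_⟩
  · intro i
    refine Continuous.div (by fun_prop) (continuous_const.max hΨc) fun z => (hm z).ne'
  · intro i z
    exact div_nonneg (le_max_left _ _) (hm z).le
  · intro i z hz
    by_contra hcon
    apply hz
    have h1 : δ - ‖z - i‖ ≤ 0 := by linarith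
    simp only [max_eq_left h1, zero_div]
  · intro z hz
    obtain ⟨i, hi, hzi⟩ := mem_iUnion₂.1 (hcov hz)
    have h1 : δ / 2 ≤ Ψ z := by
      have h2 : max 0 (δ - ‖z - i‖) ≤ Ψ z :=
        Finset.single_le_sum (f := fun j => max 0 (δ - ‖z - j‖))
          (fun j _ => le_max_left _ _) (by rw [ht]; exact hs.mem_toFinset.2 hi)
      refine le_trans ?_ h2
      rw [mem_ball, dist_eq_norm] at hzi
      exact le_max_of_le_right (by linarith)
    rw [← Finset.sum_div, max_eq_right h1]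
    exact div_self (by linarith)

/-- a cut-off function -/
def chi (z : ℂ) : ℝ := max 0 (2 - max 1 ‖z‖)

theorem continuous_chi : Continuous chi := by unfold chi; fun_prop

theorem chi_nonneg (z : ℂ) : 0 ≤ chi z := le_max_left _ _

theorem chi_le_one (z : ℂ) : chi z ≤ 1 := by
  unfold chi
  refine max_le zero_le_one ?_
  have := le_max_left 1 ‖z‖
  linarith

theorem chi_one {z : ℂ} (hz : ‖z‖ ≤ 1) : chi z = 1 := by
  unfold chi
  rw [max_eq_left hz]
  norm_num

theorem chi_zero {z : ℂ} (hz : 2 ≤ ‖z‖) : chi z = 0 := by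
  unfold chi
  have h1 : max 1 ‖z‖ = ‖z‖ := max_eq_right (by linarith)
  rw [h1]
  exact max_eq_left (by linarith)

/-- a function times the cut-off, as a bounded continuous function -/
def cut (f : ℂ → Fin n → ℂ) (hf : Continuous f) : ℂ →ᵇ (Fin n → ℂ) :=
  BoundedContinuousFunction.ofNormedAddCommGroup (fun z => (chi z : ℂ) • f z)
    ((Complex.continuous_ofReal.comp continuous_chi).smul hf)
    (sSup ((fun z => ‖f z‖) '' closedBall (0 : ℂ) 2) )
    (by
      intro z
      have hbdd : BddAbove ((fun z => ‖f z‖) '' closedBall (0 : ℂ) 2) :=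
        (isCompact_closedBall (0 : ℂ) 2).bddAbove_image hf.norm.continuousOn
      have h0 : 0 ≤ sSup ((fun z => ‖f z‖) '' closedBall (0 : ℂ) 2) := by
        refine (norm_nonneg (f 0)).trans (le_csSup hbdd (mem_image_of_mem _ ?_))
        simp
      rw [norm_smul, Complex.norm_real, Real.norm_of_nonneg (chi_nonneg z)]
      by_cases hz : ‖z‖ ≤ 2
      · refine (mul_le_of_le_one_left (norm_nonneg _) (chi_le_one z)).trans
          (le_csSup hbdd (mem_image_of_mem _ ?_))
        simpa using hz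
      · rw [chi_zero (by linarith), zero_mul]
        exact h0)

theorem cut_apply (f : ℂ → Fin n → ℂ) (hf : Continuous f) (z : ℂ) :
    cut f hf z = (chi z : ℂ) • f z := rfl

section op

variable {A : ℂ → Matrix (Fin n) (Fin n) ℂ} (hA : Adm A)

/-- a bound for `A` -/
def bd (hA : Adm A) : ℝ := hA.exists_bound.choose

include hA

theorem bd_nonneg : 0 ≤ bd hA := hA.exists_bound.choose_spec.1

theorem bd_le (w : ℂ) (v : Fin n → ℂ) : ‖A w *ᵥ v‖ ≤ bd hA * ‖v‖ :=
  hA.exists_bound.choose_spec.2 w v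

theorem wb_mv {g : ℂ → Fin n → ℂ} (hg : Continuous g) {C : ℝ}
    (hC : ∀ w ∈ ball (0 : ℂ) 1, ‖g w‖ ≤ C) : WB 0 (bd hA * C) (mv A g) :=
  WB.of_continuousOn le_rfl (hA.continuous_mv hg).continuousOn fun w hw =>
    (bd_le hA w _).trans (mul_le_mul_of_nonneg_left (hC w hw) (bd_nonneg hA))

theorem exists_wb {g : ℂ → Fin n → ℂ} (hg : Continuous g) : ∃ C, WB 0 C (mv A g) := by
  obtain ⟨C, hC⟩ := (isCompact_closedBall (0 : ℂ) 1).exists_bound_of_continuousOn
    hg.continuousOn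
  exact ⟨_, wb_mv hA hg fun w hw => hC w (ball_subset_closedBall hw)⟩

theorem wb_bcf (g : ℂ →ᵇ (Fin n → ℂ)) : WB 0 (bd hA * ‖g‖) (mv A g) :=
  wb_mv hA g.continuous fun w _ => g.norm_coe_le_norm w

theorem continuous_cauT_mv {g : ℂ → Fin n → ℂ} (hg : Continuous g) :
    Continuous (cauT (mv A g)) := by
  obtain ⟨C, hC⟩ := exists_wb hA hg
  exact hC.continuous_cauT le_rfl zero_lt_one

theorem cauT_mv_add {g h : ℂ → Fin n → ℂ} (hg : Continuous g) (hh : Continuous h) (z : ℂ) :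
    cauT (mv A (fun w => g w + h w)) z = cauT (mv A g) z + cauT (mv A h) z := by
  obtain ⟨C, hC⟩ := exists_wb hA hg
  obtain ⟨C', hC'⟩ := exists_wb hA hh
  rw [mv_add]
  exact hC.cauT_add le_rfl zero_lt_one hC' z

omit hA in
theorem cauT_mv_smul (c : ℂ) (g : ℂ → Fin n → ℂ) (z : ℂ) :
    cauT (mv A (fun w => c • g w)) z = c • cauT (mv A g) z := by
  rw [mv_smul]
  exact cauT_smul c _ z

/-- the small part of the operator `g ↦ cauT (A g)` -/
theorem exists_small : ∃ (t : Finset ℂ) (φ : ℂ → ℂ → ℝ)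
    (S : (ℂ →ᵇ (Fin n → ℂ)) →L[ℂ] (ℂ →ᵇ (Fin n → ℂ))),
    ‖S‖ ≤ 1 / 2 ∧ ∀ g z, S g z = (chi z : ℂ) •
      (cauT (mv A g) z - ∑ i ∈ t, (φ i z : ℂ) • cauT (mv A g) i) := by
  have hpi := Real.pi_pos
  set C := 4 * cst 0 (1 + 1 / 2) / Real.pi * bd hA with hC
  have hC0 : 0 ≤ C := by
    have := cst_nonneg 0 (1 + 1 / 2)
    have := bd_nonneg hA
    positivity
  obtain ⟨δ, hδ, hδC⟩ : ∃ δ : ℝ, 0 < δ ∧ C * δ ^ (1 / 2 : ℝ) ≤ 1 / 2 := by
    refine ⟨(1 / (2 * (C + 1))) ^ 2, by positivity, ?_⟩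
    rw [← Real.sqrt_eq_rpow, Real.sqrt_sq (by positivity)]
    rw [mul_one_div, div_le_div_iff₀ (by positivity) (by norm_num)]
    linarith
  obtain ⟨t, φ, hφc, hφ0, hφs, hφ1⟩ := exists_pou hδ 2
  have hcont : ∀ g : ℂ →ᵇ (Fin n → ℂ), Continuous fun z => (chi z : ℂ) •
      (cauT (mv A g) z - ∑ i ∈ t, (φ i z : ℂ) • cauT (mv A g) i) := by
    intro g
    refine (Complex.continuous_ofReal.comp continuous_chi).smul
      ((continuous_cauT_mv hA g.continuous).sub ?_)
    refine continuous_finsetSum _ fun i _ => ?_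
    exact (Complex.continuous_ofReal.comp (hφc i)).smul continuous_const
  have hbound : ∀ (g : ℂ →ᵇ (Fin n → ℂ)) z, ‖(chi z : ℂ) •
      (cauT (mv A g) z - ∑ i ∈ t, (φ i z : ℂ) • cauT (mv A g) i)‖ ≤ 1 / 2 * ‖g‖ := by
    intro g z
    rw [norm_smul, Complex.norm_real, Real.norm_of_nonneg (chi_nonneg z)]
    by_cases hz : ‖z‖ ≤ 2
    · have h1 := hφ1 z (by simpa using hz)
      have h2 : cauT (mv A g) z - ∑ i ∈ t, (φ i z : ℂ) • cauT (mv A g) i =
          ∑ i ∈ t, (φ i z : ℂ) • (cauT (mv A g) z - cauT (mv A g) i) := by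
        simp only [smul_sub]
        rw [Finset.sum_sub_distrib, ← Finset.sum_smul, ← Complex.ofReal_sum, h1]
        simp
      have h3 : ‖cauT (mv A g) z - ∑ i ∈ t, (φ i z : ℂ) • cauT (mv A g) i‖ ≤ 1 / 2 * ‖g‖ := by
        rw [h2]
        calc ‖∑ i ∈ t, (φ i z : ℂ) • (cauT (mv A g) z - cauT (mv A g) i)‖
            ≤ ∑ i ∈ t, ‖(φ i z : ℂ) • (cauT (mv A g) z - cauT (mv A g) i)‖ := norm_sum_le _ _
          _ ≤ ∑ i ∈ t, φ i z * (1 / 2 * ‖g‖) := by
              refine Finset.sum_le_sum fun i _ => ?_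
              rw [norm_smul, Complex.norm_real, Real.norm_of_nonneg (hφ0 i z)]
              by_cases h4 : φ i z = 0
              · rw [h4]; simp
              · refine mul_le_mul_of_nonneg_left ?_ (hφ0 i z)
                have h5 := hφs i z h4
                have h6 := (wb_bcf hA g).cauT_holder (h := 1 / 2) le_rfl (by norm_num)
                  (by norm_num) z i
                refine h6.trans ?_
                have h7 : ‖z - i‖ ^ (1 / 2 : ℝ) ≤ δ ^ (1 / 2 : ℝ) :=
                  Real.rpow_le_rpow (norm_nonneg _) h5.le (by norm_num)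
                calc 4 * cst 0 (1 + 1 / 2) / Real.pi * (bd hA * ‖g‖) * ‖z - i‖ ^ (1 / 2 : ℝ)
                    = (C * ‖z - i‖ ^ (1 / 2 : ℝ)) * ‖g‖ := by rw [hC]; ring
                  _ ≤ (C * δ ^ (1 / 2 : ℝ)) * ‖g‖ := by gcongr
                  _ ≤ 1 / 2 * ‖g‖ := by gcongr
          _ = 1 / 2 * ‖g‖ := by rw [← Finset.sum_mul, h1, one_mul]
      calc chi z * _ ≤ 1 * (1 / 2 * ‖g‖) := by
            have := chi_le_one z
            have := chi_nonneg z
            gcongr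
        _ = _ := one_mul _
    · rw [chi_zero (by linarith), zero_mul]
      positivity
  set S₀ : (ℂ →ᵇ (Fin n → ℂ)) →ₗ[ℂ] (ℂ →ᵇ (Fin n → ℂ)) :=
    { toFun := fun g => BoundedContinuousFunction.ofNormedAddCommGroup _ (hcont g) _ (hbound g)
      map_add' := by
        intro g h
        ext1 z
        change (chi z : ℂ) • (cauT (mv A (fun w => g w + h w)) z - ∑ i ∈ t, (φ i z : ℂ) •
          cauT (mv A (fun w => g w + h w)) i) = (chi z : ℂ) • (cauT (mv A g) z -
          ∑ i ∈ t, (φ i z : ℂ) • cauT (mv A g) i) + (chi z : ℂ) • (cauT (mv A h) z -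
          ∑ i ∈ t, (φ i z : ℂ) • cauT (mv A h) i)
        simp only [cauT_mv_add hA g.continuous h.continuous, smul_add, Finset.sum_add_distrib,
          smul_sub]
        abel
      map_smul' := by
        intro c g
        ext1 z
        change (chi z : ℂ) • (cauT (mv A (fun w => c • g w)) z - ∑ i ∈ t, (φ i z : ℂ) •
          cauT (mv A (fun w => c • g w)) i) = c • ((chi z : ℂ) • (cauT (mv A g) z -
          ∑ i ∈ t, (φ i z : ℂ) • cauT (mv A g) i))
        simp only [cauT_mv_smul, smul_sub, Finset.smul_sum]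
        simp only [smul_comm c] } with hS₀
  have hS₀b : ∀ g, ‖S₀ g‖ ≤ 1 / 2 * ‖g‖ := by
    intro g
    rw [BoundedContinuousFunction.norm_le (by positivity)]
    exact hbound g
  refine ⟨t, φ, S₀.mkContinuous (1 / 2) hS₀b, ?_, fun g z => rfl⟩
  exact LinearMap.mkContinuous_norm_le _ (by norm_num) _

/-- **polynomial right hand sides** -/
theorem exists_poly (j : Fin n) : ∃ (q : ℂ[X]) (g : ℂ → Fin n → ℂ), q ≠ 0 ∧ Continuous g ∧
    ∀ z, g z + cauT (mv A g) z = Pi.single j (q.eval z) := by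
  classical
  obtain ⟨t, φ, S, hS, hSg⟩ := exists_small hA
  have hS1 : ‖-S‖ < 1 := lt_of_eq_of_lt (norm_neg S) (by linarith)
  set u := Units.oneSub (-S) hS1 with hu
  set R : (ℂ →ᵇ (Fin n → ℂ)) →L[ℂ] (ℂ →ᵇ (Fin n → ℂ)) := ↑(u⁻¹) with hR
  have hRS : ∀ f, R f + S (R f) = f := by
    intro f
    have h1 : (u : (ℂ →ᵇ (Fin n → ℂ)) →L[ℂ] (ℂ →ᵇ (Fin n → ℂ))) * R = 1 := u.mul_inv
    have h2 : (u : (ℂ →ᵇ (Fin n → ℂ)) →L[ℂ] (ℂ →ᵇ (Fin n → ℂ))) = 1 + S := by
      rw [hu, Units.val_oneSub]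
      exact sub_neg_eq_add 1 S
    rw [h2] at h1
    have h3 := congrArg (fun L : (ℂ →ᵇ (Fin n → ℂ)) →L[ℂ] (ℂ →ᵇ (Fin n → ℂ)) => L f) h1
    simpa using h3
  have hpc : ∀ q : ℂ[X], Continuous fun z => (Pi.single j (q.eval z) : Fin n → ℂ) := by
    intro q
    exact (continuous_single j).comp q.continuous
  set rhs : ℂ[X] → (ℂ →ᵇ (Fin n → ℂ)) := fun q => cut _ (hpc q) with hrhs
  set Λ : ℂ[X] →ₗ[ℂ] (t → Fin n → ℂ) :=
    { toFun := fun q i => cauT (mv A (R (rhs q))) i
      map_add' := by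
        intro p q
        have h1 : rhs (p + q) = rhs p + rhs q := by
          ext1 z
          simp only [hrhs, cut_apply, BoundedContinuousFunction.coe_add, Pi.add_apply,
            Polynomial.eval_add, Pi.single_add, smul_add]
        funext i
        rw [h1, map_add]
        exact cauT_mv_add hA (R (rhs p)).continuous (R (rhs q)).continuous i
      map_smul' := by
        intro c q
        have h1 : rhs (c • q) = c • rhs q := by
          ext1 z
          simp only [hrhs, cut_apply, BoundedContinuousFunction.coe_smul,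
            Polynomial.eval_smul, smul_eq_mul]
          rw [smul_comm]
          congr 1
          rw [← smul_eq_mul, Pi.single_smul]
        funext i
        rw [h1, map_smul]
        exact cauT_mv_smul c (R (rhs q)) i } with hΛ
  obtain ⟨q, hq0, hq⟩ : ∃ q : ℂ[X], q ≠ 0 ∧ Λ q = 0 := by
    by_contra hcon
    push Not at hcon
    have hinj : Function.Injective Λ := by
      rw [← LinearMap.ker_eq_bot, LinearMap.ker_eq_bot']
      intro q hq
      by_contra h0
      exact hcon q h0 hq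
    have hfin : Module.Finite ℂ ℂ[X] := FiniteDimensional.of_injective Λ hinj
    exact Polynomial.not_finite hfin
  set g₀ := R (rhs q) with hg₀
  have hz : ∀ i ∈ t, cauT (mv A g₀) i = 0 := fun i hi => congrFun hq ⟨i, hi⟩
  have heq : ∀ z, ‖z‖ ≤ 1 → g₀ z + cauT (mv A g₀) z = Pi.single j (q.eval z) := by
    intro z hz1
    have h1 := congrArg (fun f : ℂ →ᵇ (Fin n → ℂ) => f z) (hRS (rhs q))
    simp only [BoundedContinuousFunction.coe_add, Pi.add_apply] at h1
    rw [hSg, Finset.sum_eq_zero (fun i hi => by rw [hz i hi, smul_zero]), sub_zero,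
      chi_one hz1] at h1
    simp only [hrhs, cut_apply, chi_one hz1, Complex.ofReal_one, one_smul] at h1
    exact h1
  refine ⟨q, fun z => Pi.single j (q.eval z) - cauT (mv A g₀) z, hq0,
    (hpc q).sub (continuous_cauT_mv hA g₀.continuous), fun z => ?_⟩
  have h2 : mv A (fun z => Pi.single j (q.eval z) - cauT (mv A g₀) z) = mv A g₀ := by
    funext w
    by_cases hw : w ∈ ball (0 : ℂ) 1
    · have hw' : ‖w‖ ≤ 1 := (mem_ball_zero_iff.1 hw).le
      have h3 : Pi.single j (q.eval w) - cauT (mv A g₀) w = g₀ w := by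
        rw [← heq w hw', add_sub_cancel_right]
      change A w *ᵥ (Pi.single j (q.eval w) - cauT (mv A g₀) w) = A w *ᵥ g₀ w
      rw [h3]
    · rw [hA.mv_zero _ hw, hA.mv_zero _ hw]
  rw [h2, sub_add_cancel]

end op

end Vale.Agent.P272.DA
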