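import Vale.Agent.P272.DA.Frame
import Vale.Agent.P272.GEO.Defs

/-!
# P272, the frame theorem in the form of `GEO.GaugeStmt`
-/

open MeasureTheory Set Metric Filter Topology

noncomputable section

namespace Vale.Agent.P272.DA

open Vale.Agent.P272.CT

theorem gaugeStmt : GEO.GaugeStmt := by
  intro n a ha
  obtain ⟨g, hg, hdet, hw⟩ := frame a ha
  refine ⟨g, hg.continuousOn, hdet, fun i j => ?_⟩
  have hab : ∀ l k, ContinuousOn (fun z => a z l k) (ball 0 1) := fun l k => by
    have h1 : ContinuousOn (fun z => a z l) (closedBall 0 1) := continuousOn_pi.1 ha l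
    exact (continuousOn_pi.1 h1 k).mono ball_subset_closedBall
  have h2 : ContinuousOn (fun z (i : Fin n) => -(a z * g z) i j) (ball 0 1) := by
    refine continuousOn_pi.2 fun i => ?_
    simp only [Matrix.mul_apply]
    exact (continuousOn_finsetSum _ fun l _ =>
      (hab i l).mul (hg.matrix_elem l j).continuousOn).neg
  exact wdb_clm isOpen_ball (continuousOn_pi.2 fun i => (hg.matrix_elem i j).continuousOn) h2
    (hw j) (ContinuousLinearMap.proj (R := ℂ) (φ := fun _ : Fin n => ℂ) i)

end Vale.Agent.P272.DA
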