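import Vale.Agent.P272.DA.Div

/-!
# P272, frames: division of zeros and the nowhere degenerate tuple
-/

open MeasureTheory Set Metric Filter Topology Bornology
open scoped BoundedContinuousFunction Matrix Polynomial

noncomputable section

namespace Vale.Agent.P272.DA

open Vale.Agent.P272.CT

variable {n : ℕ} {A : ℂ → Matrix (Fin n) (Fin n) ℂ}

theorem lip_entire {p : ℂ → Fin n → ℂ} (hp : Differentiable ℂ p) (R : ℝ) :
    ∃ L : ℝ, 0 ≤ L ∧ ∀ z ∈ closedBall (0 : ℂ) R, ∀ w ∈ closedBall (0 : ℂ) R,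
      ‖p w - p z‖ ≤ L * ‖w - z‖ := by
  have hc : Continuous (deriv p) := (hp.contDiff (n := 1)).continuous_deriv le_rfl
  obtain ⟨L, hL⟩ := (isCompact_closedBall (0 : ℂ) R).exists_bound_of_continuousOn hc.continuousOn
  refine ⟨max L 0, le_max_right _ _, fun z hz w hw => ?_⟩
  refine (convex_closedBall (0 : ℂ) R).norm_image_sub_le_of_norm_deriv_le (𝕜 := ℂ)
    (fun x _ => hp x) (fun x hx => (hL x hx).trans (le_max_left _ _)) hz hw

theorem half_holder {g : ℂ → Fin n → ℂ} (hA : Adm A) (hg : Sol A g) {z0 : ℂ} (h0 : g z0 = 0) :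
    ∃ M : ℝ, 0 ≤ M ∧ ∀ w ∈ ball (0 : ℂ) 1, ‖g w‖ ≤ M * ‖z0 - w‖ ^ (1 / 2 : ℝ) := by
  obtain ⟨p, hp, hp'⟩ := hg.eq
  obtain ⟨C, hC⟩ := exists_wb hA hg.cont
  obtain ⟨L, hL0, hL⟩ := lip_entire hp (max 1 ‖z0‖)
  set K := 4 * cst 0 (1 + 1 / 2) / Real.pi * C with hK
  have hK0 : 0 ≤ K := by
    have := hC.nonneg
    have := cst_nonneg 0 (1 + 1 / 2)
    have := Real.pi_pos
    positivity
  refine ⟨L * (1 + ‖z0‖) ^ (1 / 2 : ℝ) + K, by positivity, fun w hw => ?_⟩
  have hw' : ‖w‖ < 1 := mem_ball_zero_iff.1 hw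
  have h1 : g w = (p w - p z0) - (cauT (mv A g) w - cauT (mv A g) z0) := by
    have e1 := hp' w
    have e2 := hp' z0
    rw [h0, zero_add] at e2
    rw [← e1, ← e2]
    abel
  have h2 : ‖p w - p z0‖ ≤ L * (1 + ‖z0‖) ^ (1 / 2 : ℝ) * ‖z0 - w‖ ^ (1 / 2 : ℝ) := by
    have h3 := hL z0 (by simp) w (by
      rw [mem_closedBall_zero_iff]
      exact hw'.le.trans (le_max_left _ _))
    rw [norm_sub_rev w z0] at h3
    have h4 : ‖z0 - w‖ ≤ 1 + ‖z0‖ := by
      have := norm_sub_le z0 w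
      linarith
    have h5 : ‖z0 - w‖ = ‖z0 - w‖ ^ (1 / 2 : ℝ) * ‖z0 - w‖ ^ (1 / 2 : ℝ) := by
      rw [← Real.sqrt_eq_rpow, Real.mul_self_sqrt (norm_nonneg _)]
    calc ‖p w - p z0‖ ≤ L * ‖z0 - w‖ := h3
      _ = L * (‖z0 - w‖ ^ (1 / 2 : ℝ) * ‖z0 - w‖ ^ (1 / 2 : ℝ)) := by rw [← h5]
      _ ≤ L * ((1 + ‖z0‖) ^ (1 / 2 : ℝ) * ‖z0 - w‖ ^ (1 / 2 : ℝ)) := by gcongr
      _ = _ := by ring
  have h3 := hC.cauT_holder (h := 1 / 2) le_rfl (by norm_num) (by norm_num) w z0
  rw [norm_sub_rev w z0] at h3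
  calc ‖g w‖ ≤ ‖p w - p z0‖ + ‖cauT (mv A g) w - cauT (mv A g) z0‖ := by
        rw [h1]
        exact norm_sub_le _ _
    _ ≤ L * (1 + ‖z0‖) ^ (1 / 2 : ℝ) * ‖z0 - w‖ ^ (1 / 2 : ℝ) +
        K * ‖z0 - w‖ ^ (1 / 2 : ℝ) := add_le_add h2 h3
    _ = _ := by ring

/-- **division by `z - z0`** -/
theorem Sol.div {g : ℂ → Fin n → ℂ} (hA : Adm A) (hg : Sol A g) {z0 : ℂ} (h0 : g z0 = 0) :
    ∃ g' : ℂ → Fin n → ℂ, Sol A g' ∧ ∀ z, (z - z0) • g' z = g z := by
  obtain ⟨p, hp, hp'⟩ := hg.eq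
  obtain ⟨M, hM, hMg⟩ := half_holder hA hg h0
  have hgc := hA.continuous_mv hg.cont
  set F : ℂ → Fin n → ℂ := fun w => (w - z0)⁻¹ • mv A g w with hF
  have hFm : AEStronglyMeasurable F (volume.restrict (ball (0 : ℂ) 1)) := by
    have h1 : AEStronglyMeasurable (fun w : ℂ => (w - z0)⁻¹) (volume.restrict (ball (0 : ℂ) 1)) :=
      (by fun_prop : Measurable (fun w : ℂ => (w - z0)⁻¹)).aestronglyMeasurable
    exact h1.smul hgc.aestronglyMeasurable
  have hFb : ∀ w ∈ ball (0 : ℂ) 1, ‖F w‖ ≤ (bd hA * M) * ‖z0 - w‖ ^ (-(1 / 2) : ℝ) := by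
    intro w hw
    by_cases hwz : w = z0
    · subst hwz
      simp only [hF, sub_self, inv_zero, zero_smul, norm_zero]
      have := bd_nonneg hA
      positivity
    · have hv : 0 < ‖z0 - w‖ := norm_pos_iff.2 (sub_ne_zero.2 (Ne.symm hwz))
      have h1 : ‖mv A g w‖ ≤ bd hA * (M * ‖z0 - w‖ ^ (1 / 2 : ℝ)) :=
        (bd_le hA w (g w)).trans (mul_le_mul_of_nonneg_left (hMg w hw) (bd_nonneg hA))
      have h2 : ‖z0 - w‖⁻¹ * ‖z0 - w‖ ^ (1 / 2 : ℝ) = ‖z0 - w‖ ^ (-(1 / 2) : ℝ) := by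
        rw [← Real.rpow_neg_one, ← Real.rpow_add hv]
        norm_num
      simp only [hF]
      rw [norm_smul, norm_inv, norm_sub_rev w z0]
      calc ‖z0 - w‖⁻¹ * ‖mv A g w‖ ≤ ‖z0 - w‖⁻¹ * (bd hA * (M * ‖z0 - w‖ ^ (1 / 2 : ℝ))) := by
            gcongr
        _ = bd hA * M * (‖z0 - w‖⁻¹ * ‖z0 - w‖ ^ (1 / 2 : ℝ)) := by ring
        _ = _ := by rw [h2]
  have hC0 : 0 ≤ bd hA * M := mul_nonneg (bd_nonneg hA) hM
  have hcF := continuousAt_cauT_sing hFm hC0 hFb
  have hds : Differentiable ℂ (dslope p z0) := by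
    have h1 := (Complex.differentiableOn_dslope (f := p) (c := z0) (s := univ)
      univ_mem).2 hp.differentiableOn
    exact fun z => (h1 z trivial).differentiableAt univ_mem
  set g' : ℂ → Fin n → ℂ := fun z => dslope p z0 z - cauT F z with hg'
  -- the quotient formula
  have hquot : ∀ z, (z - z0) • g' z = g z := by
    intro z
    by_cases hz : z = z0
    · rw [hz, sub_self, zero_smul, h0]
    have hI1 := (exists_wb hA hg.cont).choose_spec.integrableOn_ker le_rfl zero_lt_one z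
    have hI0 := (exists_wb hA hg.cont).choose_spec.integrableOn_ker le_rfl zero_lt_one z0
    have h1 : (z - z0) • cauT F z = cauT (mv A g) z - cauT (mv A g) z0 := by
      rw [cauT, cauT, cauT, ← smul_sub, ← integral_sub hI1 hI0, smul_comm (z - z0),
        ← integral_smul]
      congr 1
      refine integral_congr_ae ?_
      filter_upwards [ae_ne z, ae_ne z0] with w hwz hwz0
      have e1 : z - w ≠ 0 := sub_ne_zero.2 (Ne.symm hwz)
      have e2 : w - z0 ≠ 0 := sub_ne_zero.2 hwz0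
      have e3 : z0 - w ≠ 0 := sub_ne_zero.2 (Ne.symm hwz0)
      simp only [hF]
      rw [← sub_smul, smul_smul, smul_smul]
      congr 1
      have e4 : w - z0 = -(z0 - w) := by ring
      rw [e4, inv_neg]
      field_simp
      ring
    have h2 : (z - z0) • dslope p z0 z = p z - p z0 := sub_smul_dslope p z0 z
    have h3 := hp' z
    have h4 := hp' z0
    rw [h0, zero_add] at h4
    simp only [hg']
    rw [smul_sub, h1, h2, ← h3, h4]
    abel
  have hcont : Continuous g' := by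
    rw [continuous_iff_continuousAt]
    intro z
    by_cases hz : z = z0
    · subst hz
      exact hds.continuous.continuousAt.sub hcF
    · have h1 : g' =ᶠ[𝓝 z] fun z => (z - z0)⁻¹ • g z := by
        filter_upwards [isOpen_ne.mem_nhds hz] with w hw
        rw [← hquot w, smul_smul, inv_mul_cancel₀ (sub_ne_zero.2 hw), one_smul]
      have h2 : ContinuousAt (fun w : ℂ => (w - z0)⁻¹) z :=
        ContinuousAt.inv₀ (by fun_prop) (sub_ne_zero.2 hz)
      have h3 : ContinuousAt (fun w : ℂ => (w - z0)⁻¹ • g w) z := h2.smul hg.cont.continuousAt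
      exact h3.congr h1.symm
  refine ⟨g', ⟨hcont, dslope p z0, hds, fun z => ?_⟩, hquot⟩
  have h1 : cauT (mv A g') = cauT F := by
    refine cauT_congr_ae ?_
    filter_upwards [ae_ne z0] with w hw
    have h2 : g' w = (w - z0)⁻¹ • g w := by
      rw [← hquot w, smul_smul, inv_mul_cancel₀ (sub_ne_zero.2 hw), one_smul]
    simp only [mv, hF]
    rw [h2, Matrix.mulVec_smul]
  rw [h1]
  simp only [hg']
  rw [sub_add_cancel]

/-- one step: remove one zero of the determinant -/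
theorem dt_step (hA : Adm A) {G : Fin n → ℂ → Fin n → ℂ} (hG : ∀ j, Sol A (G j)) {z0 : ℂ}
    (h0 : dt G z0 = 0) :
    ∃ G' : Fin n → ℂ → Fin n → ℂ, (∀ j, Sol A (G' j)) ∧ ∀ z, (z - z0) * dt G' z = dt G z := by
  classical
  obtain ⟨v, hv, hv0⟩ := Matrix.exists_vecMul_eq_zero_iff.2 h0
  obtain ⟨j0, hj0⟩ := Function.ne_iff.1 hv
  have hj0' : v j0 ≠ 0 := hj0
  set c : Fin n → ℂ := fun j => v j / v j0 with hc
  have hc1 : c j0 = 1 := div_self hj0'
  set gs : ℂ → Fin n → ℂ := fun z => ∑ j ∈ Finset.univ, c j • G j z with hgs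
  have hgsS : Sol A gs := Sol.sum hA Finset.univ c G fun j _ => hG j
  have hgs0 : gs z0 = 0 := by
    funext i
    have h1 := congrFun hv0 i
    simp only [Matrix.vecMul, dotProduct, Matrix.of_apply, Pi.zero_apply] at h1
    simp only [hgs, Finset.sum_apply, Pi.smul_apply, smul_eq_mul, Pi.zero_apply, hc]
    have h2 : ∑ j, v j / v j0 * G j z0 i = (v j0)⁻¹ * ∑ j, v j * G j z0 i := by
      rw [Finset.mul_sum]
      refine Finset.sum_congr rfl fun j _ => ?_
      rw [div_eq_mul_inv]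
      ring
    rw [h2, h1, mul_zero]
  obtain ⟨g', hg', hq⟩ := hgsS.div hA hgs0
  refine ⟨Function.update G j0 g', fun j => ?_, fun z => ?_⟩
  · by_cases hj : j = j0
    · subst hj
      rw [Function.update_self]
      exact hg'
    · rw [Function.update_of_ne hj]
      exact hG j
  · have h1 : (Matrix.of fun j => Function.update G j0 g' j z) =
        (Matrix.of fun j => G j z).updateRow j0 (g' z) := by
      ext i k
      rw [Matrix.of_apply, Matrix.updateRow_apply]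
      by_cases hi : i = j0
      · subst hi
        rw [if_pos rfl, Function.update_self]
      · rw [if_neg hi, Function.update_of_ne hi]
        rfl
    unfold dt
    rw [h1, ← Matrix.det_updateRow_smul, hq z]
    have h2 := Matrix.det_updateRow_sum (Matrix.of fun j => G j z) j0 c
    rw [hc1, one_smul] at h2
    exact h2

/-- **nowhere degenerate tuple** on the closed disc -/
theorem exists_frame (hA : Adm A) :
    ∃ G : Fin n → ℂ → Fin n → ℂ, (∀ j, Sol A (G j)) ∧ ∀ z ∈ closedBall (0 : ℂ) 1, dt G z ≠ 0 := by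
  by_contra hcon
  push Not at hcon
  obtain ⟨G0, hG0, zs, hzs⟩ := exists_tuple hA
  -- divide `k` times
  have hdiv : ∀ k : ℕ, ∃ (G : Fin n → ℂ → Fin n → ℂ) (P : ℂ → ℂ), (∀ j, Sol A (G j)) ∧
      (∀ z, dt G0 z = P z * dt G z) ∧ (∀ z, ‖P z‖ ≤ (‖z‖ + 1) ^ k) ∧
      ∀ z, 1 ≤ ‖z‖ → (‖z‖ - 1) ^ k ≤ ‖P z‖ := by
    intro k
    induction k with
    | zero => exact ⟨G0, fun _ => 1, hG0, fun z => (one_mul _).symm, fun z => by simp,
        fun z _ => by simp⟩
    | succ k ih =>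
      obtain ⟨G, P, hG, h1, h2, h3⟩ := ih
      obtain ⟨z0, hz0, hz0'⟩ := hcon G hG
      rw [mem_closedBall_zero_iff] at hz0
      obtain ⟨G', hG', h4⟩ := dt_step hA hG hz0'
      refine ⟨G', fun z => P z * (z - z0), hG', fun z => ?_, fun z => ?_, fun z hz => ?_⟩
      · rw [h1 z, ← h4 z]
        ring
      · rw [norm_mul, pow_succ]
        have h5 : ‖z - z0‖ ≤ ‖z‖ + 1 := (norm_sub_le _ _).trans (by linarith)
        exact mul_le_mul (h2 z) h5 (norm_nonneg _) (by positivity)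
      · rw [norm_mul, pow_succ]
        have h5 : ‖z‖ - 1 ≤ ‖z - z0‖ := by
          have := norm_sub_norm_le z z0
          linarith
        exact mul_le_mul (h3 z hz) h5 (by linarith) (norm_nonneg _)
  -- the contradiction
  set R : ℝ := ‖zs‖ + 3 with hR
  have hR1 : 1 ≤ R - 1 := by
    have := norm_nonneg zs
    rw [hR]; linarith
  have hH0 : Continuous fun z => dt G0 z * Ex A z :=
    (continuous_dt fun j => (hG0 j).cont).mul (continuous_Ex hA)
  obtain ⟨M0, hM0⟩ := (isCompact_closedBall (0 : ℂ) R).exists_bound_of_continuousOn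
    hH0.continuousOn
  have hkey : ∀ k : ℕ, ‖dt G0 zs * Ex A zs‖ ≤ M0 * ((‖zs‖ + 1) / (‖zs‖ + 2)) ^ k := by
    intro k
    obtain ⟨G, P, hG, h1, h2, h3⟩ := hdiv k
    have hd := differentiable_dt hA hG
    have hsph : ∀ z ∈ frontier (ball (0 : ℂ) R), ‖dt G z * Ex A z‖ ≤ M0 / (R - 1) ^ k := by
      intro z hz
      have hRne : R ≠ 0 := by
        intro h
        rw [h] at hR1
        linarith
      rw [frontier_ball _ hRne, mem_sphere_zero_iff_norm] at hz
      have h4 := h3 z (by linarith)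
      rw [hz] at h4
      have h5 := hM0 z (by rw [mem_closedBall_zero_iff, hz])
      rw [h1 z] at h5
      rw [le_div_iff₀ (by positivity)]
      calc ‖dt G z * Ex A z‖ * (R - 1) ^ k ≤ ‖dt G z * Ex A z‖ * ‖P z‖ := by gcongr
        _ = ‖P z * dt G z * Ex A z‖ := by
            rw [norm_mul, norm_mul, norm_mul]
            ring
        _ ≤ M0 := h5
    have h6 := Complex.norm_le_of_forall_mem_frontier_norm_le (U := ball (0 : ℂ) R)
      isBounded_ball hd.diffContOnCl hsph (z := zs) (subset_closure (by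
        rw [mem_ball_zero_iff, hR]; linarith))
    have hM0' : 0 ≤ M0 := (norm_nonneg _).trans (hM0 0 (by simp; linarith))
    calc ‖dt G0 zs * Ex A zs‖ = ‖P zs‖ * ‖dt G zs * Ex A zs‖ := by
          rw [h1 zs, norm_mul, norm_mul, norm_mul]
          ring
      _ ≤ (‖zs‖ + 1) ^ k * (M0 / (R - 1) ^ k) := by
          have := h2 zs
          gcongr
      _ = _ := by
          have h7 : R - 1 = ‖zs‖ + 2 := by rw [hR]; ring
          rw [h7, div_pow]
          ring
  have hlim : Tendsto (fun k : ℕ => M0 * ((‖zs‖ + 1) / (‖zs‖ + 2)) ^ k) atTop (𝓝 (M0 * 0)) := by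
    refine (tendsto_pow_atTop_nhds_zero_of_lt_one (by positivity) ?_).const_mul M0
    rw [div_lt_one (by positivity)]
    linarith
  rw [mul_zero] at hlim
  have h8 := ge_of_tendsto' hlim hkey
  exact mul_ne_zero hzs (Ex_ne_zero zs) (norm_le_zero_iff.1 h8)

end Vale.Agent.P272.DA
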