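import Vale.Agent.P116.FK.Pom

/-!
# P272, disc analysis: weak d-bar equations in one variable

`db ψ w = fderiv ℝ ψ w 1 + I * fderiv ℝ ψ w I` (twice the Wirtinger derivative).
-/

open MeasureTheory Set Metric Filter Topology
open scoped ContDiff Convolution

noncomputable section

namespace Vale.Agent.P272.DA

export Vale.Agent.P116.FK (db)

theorem db_mul {f g : ℂ → ℂ} {w : ℂ} (hf : DifferentiableAt ℝ f w) (hg : DifferentiableAt ℝ g w) :
    db (fun z => f z * g z) w = db f w * g w + f w * db g w := by
  unfold db
  have h : fderiv ℝ (fun z => f z * g z) w = f w • fderiv ℝ g w + g w • fderiv ℝ f w := by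
    have := fderiv_mul hf hg
    simpa [Pi.mul_def] using this
  rw [h]
  simp only [add_apply, smul_apply, smul_eq_mul]
  ring

theorem db_add {f g : ℂ → ℂ} {w : ℂ} (hf : DifferentiableAt ℝ f w) (hg : DifferentiableAt ℝ g w) :
    db (fun z => f z + g z) w = db f w + db g w := by
  unfold db
  have h : fderiv ℝ (fun z => f z + g z) w = fderiv ℝ f w + fderiv ℝ g w := fderiv_add hf hg
  rw [h]
  simp only [add_apply]
  ring

theorem db_const_mul {f : ℂ → ℂ} {w : ℂ} (c : ℂ) (hf : DifferentiableAt ℝ f w) :
    db (fun z => c * f z) w = c * db f w := by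
  rw [db_mul (differentiableAt_const c) hf]
  simp [db]

theorem db_eq_zero {f : ℂ → ℂ} {w : ℂ} (hf : DifferentiableAt ℂ f w) : db f w = 0 := by
  unfold db
  have h := (differentiableAt_complex_iff_differentiableAt_real.1 hf).2
  rw [h, smul_eq_mul, ← mul_assoc, Complex.I_mul_I]
  ring

theorem differentiableAt_of_db {f : ℂ → ℂ} {w : ℂ} (hf : DifferentiableAt ℝ f w)
    (h : db f w = 0) : DifferentiableAt ℂ f w := by
  refine differentiableAt_complex_iff_differentiableAt_real.2 ⟨hf, ?_⟩
  unfold db at h
  have h2 : Complex.I * (fderiv ℝ f w 1 + Complex.I * fderiv ℝ f w Complex.I) = 0 := by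
    rw [h, mul_zero]
  have h3 : Complex.I * (Complex.I * fderiv ℝ f w Complex.I) = - fderiv ℝ f w Complex.I := by
    rw [← mul_assoc, Complex.I_mul_I]; ring
  rw [mul_add, h3] at h2
  rw [smul_eq_mul]
  linear_combination -h2

theorem continuous_db {f : ℂ → ℂ} (hf : ContDiff ℝ 1 f) : Continuous (db f) := by
  unfold db
  have := hf.continuous_fderiv (by simp)
  fun_prop

theorem hasCompactSupport_db {f : ℂ → ℂ} (hs : HasCompactSupport f) : HasCompactSupport (db f) := by
  have h := hs.fderiv ℝ
  refine h.mono (fun x hx => ?_)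
  rw [Function.mem_support] at hx ⊢
  intro h0
  apply hx
  unfold db
  rw [h0]
  simp

/-- the mollifier -/
def rho (φ : ContDiffBump (0 : ℂ)) (z : ℂ) : ℂ := (φ.normed volume z : ℂ)

theorem rho_contDiff (φ : ContDiffBump (0 : ℂ)) : ContDiff ℝ ∞ (rho φ) :=
  Complex.ofRealCLM.contDiff.comp φ.contDiff_normed

theorem rho_supp (φ : ContDiffBump (0 : ℂ)) : HasCompactSupport (rho φ) := by
  have := φ.hasCompactSupport_normed (μ := (volume : Measure ℂ))
  exact this.comp_left (g := fun x : ℝ => (x : ℂ)) (by simp)

theorem rho_zero (φ : ContDiffBump (0 : ℂ)) {z : ℂ} (hz : φ.rOut ≤ ‖z‖) : rho φ z = 0 := by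
  unfold rho
  have : z ∉ Function.support (φ.normed (volume : Measure ℂ)) := by
    rw [φ.support_normed_eq, mem_ball_zero_iff]
    exact not_lt.2 hz
  rw [Function.notMem_support.1 this]
  simp

/-- mollification -/
def mol (φ : ContDiffBump (0 : ℂ)) (g : ℂ → ℂ) : ℂ → ℂ :=
  g ⋆[ContinuousLinearMap.mul ℝ ℂ, volume] rho φ

theorem mol_apply (φ : ContDiffBump (0 : ℂ)) (g : ℂ → ℂ) (z : ℂ) :
    mol φ g z = ∫ t, g t * rho φ (z - t) := rfl

theorem mol_contDiff (φ : ContDiffBump (0 : ℂ)) {g : ℂ → ℂ} (hg : LocallyIntegrable g) :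
    ContDiff ℝ ∞ (mol φ g) :=
  (rho_supp φ).contDiff_convolution_right _ hg (rho_contDiff φ)

theorem db_mol (φ : ContDiffBump (0 : ℂ)) {g : ℂ → ℂ} (hg : LocallyIntegrable g) (z : ℂ) :
    db (mol φ g) z = ∫ t, g t * db (rho φ) (z - t) := by
  have h1 := (rho_supp φ).hasFDerivAt_convolution_right (ContinuousLinearMap.mul ℝ ℂ) hg
    ((rho_contDiff φ).of_le (by exact_mod_cast le_top)) z
  have hf : fderiv ℝ (mol φ g) z = _ := h1.fderiv
  have hs := (rho_supp φ).fderiv ℝ
  have hc : Continuous (fderiv ℝ (rho φ)) := (rho_contDiff φ).continuous_fderiv (by simp)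
  have h2 : ∀ v, (g ⋆[(ContinuousLinearMap.mul ℝ ℂ).precompR ℂ, volume] fderiv ℝ (rho φ)) z v =
      ∫ t, g t * fderiv ℝ (rho φ) (z - t) v := by
    intro v
    rw [convolution_precompR_apply _ hg hs hc]
    rfl
  unfold db
  rw [hf, h2, h2]
  have hI : ∀ v : ℂ, Integrable (fun t => g t * fderiv ℝ (rho φ) (z - t) v) := by
    intro v
    have h3 : HasCompactSupport (fun x => fderiv ℝ (rho φ) x v) :=
      hs.comp_left (g := fun L : ℂ →L[ℝ] ℂ => L v) (by simp)
    exact h3.convolutionExists_right (ContinuousLinearMap.mul ℝ ℂ) hg (by fun_prop) z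
  rw [← integral_const_mul, ← integral_add (hI 1) ((hI Complex.I).const_mul _)]
  refine integral_congr_ae (Eventually.of_forall fun t => ?_)
  simp only
  ring

theorem mol_dist (φ : ContDiffBump (0 : ℂ)) {g : ℂ → ℂ} (hg : LocallyIntegrable g) {z : ℂ} {ε : ℝ}
    (h : ∀ x ∈ ball z φ.rOut, dist (g x) (g z) ≤ ε) : dist (mol φ g z) (g z) ≤ ε := by
  have h1 := φ.dist_normed_convolution_le (μ := (volume : Measure ℂ)) hg.aestronglyMeasurable h
  have h2 : mol φ g z = (φ.normed volume ⋆[ContinuousLinearMap.lsmul ℝ ℝ, volume] g) z := by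
    rw [mol_apply, convolution_def, ← integral_sub_left_eq_self _ volume z]
    refine integral_congr_ae (Eventually.of_forall fun t => ?_)
    simp [rho, mul_comm]
  rw [h2]
  exact h1

/-- translates of the reflected mollifier as test functions -/
theorem db_rho_sub (φ : ContDiffBump (0 : ℂ)) (z w : ℂ) :
    db (fun t => rho φ (z - t)) w = - db (rho φ) (z - w) := by
  unfold db
  have h : fderiv ℝ (fun t => rho φ (z - t)) w = - fderiv ℝ (rho φ) (z - w) := by
    have hd : DifferentiableAt ℝ (rho φ) (z - w) :=
      ((rho_contDiff φ).differentiable (by simp)).differentiableAt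
    have h1 : HasFDerivAt (fun t : ℂ => z - t) (-(ContinuousLinearMap.id ℝ ℂ)) w :=
      (hasFDerivAt_id w).const_sub z
    have h2 := (hd.hasFDerivAt.comp w h1).fderiv
    simp only [Function.comp_def] at h2
    rw [h2]
    ext v
    simp
  rw [h]
  simp only [neg_apply]
  ring

/-- **(W)** continuous weakly holomorphic functions are holomorphic. -/
theorem holo_of_weak {U : Set ℂ} (hU : IsOpen U) {g : ℂ → ℂ} (hg : ContinuousOn g U)
    (h : ∀ ξ : ℂ → ℂ, ContDiff ℝ ∞ ξ → HasCompactSupport ξ → tsupport ξ ⊆ U →
      ∫ w, db ξ w * g w = 0) : DifferentiableOn ℂ g U := by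
  intro z0 hz0
  obtain ⟨r0, hr0, hball⟩ := Metric.isOpen_iff.1 hU z0 hz0
  set r := r0 / 3 with hr
  have hrp : 0 < r := by positivity
  have hsub : closedBall z0 (2 * r) ⊆ U := fun x hx => hball (by
    rw [mem_closedBall] at hx
    rw [mem_ball]
    linarith)
  set G : ℂ → ℂ := (closedBall z0 (2 * r)).indicator g with hG
  have hGi : Integrable G := by
    rw [hG, integrable_indicator_iff measurableSet_closedBall]
    exact (hg.mono hsub).integrableOn_compact (isCompact_closedBall _ _)
  have hGl : LocallyIntegrable G := hGi.locallyIntegrable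
  have hGe : ∀ x ∈ closedBall z0 (2 * r), G x = g x := fun x hx => indicator_of_mem hx g
  set φ : ℕ → ContDiffBump (0 : ℂ) := fun k =>
    ⟨r / (k + 2) / 2, r / (k + 2), by positivity, half_lt_self (by positivity)⟩ with hφ
  have hrout : ∀ k, (φ k).rOut = r / (k + 2) := fun k => rfl
  have hroutlt : ∀ k, (φ k).rOut < r := fun k => by
    rw [hrout]
    exact div_lt_self hrp (by have : (0 : ℝ) ≤ k := k.cast_nonneg; linarith)
  have hol : ∀ k, DifferentiableOn ℂ (mol (φ k) G) (ball z0 r) := by
    intro k z hz
    refine (differentiableAt_of_db ((mol_contDiff (φ k) hGl).differentiable (by simp) z)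
      ?_).differentiableWithinAt
    rw [db_mol _ hGl]
    have hsupp : tsupport (fun t => rho (φ k) (z - t)) ⊆ closedBall z (φ k).rOut := by
      refine closure_minimal ?_ isClosed_closedBall
      intro t ht
      rw [Function.mem_support] at ht
      by_contra hcon
      apply ht
      apply rho_zero
      rw [mem_closedBall, dist_eq_norm, norm_sub_rev] at hcon
      linarith
    have hin : closedBall z (φ k).rOut ⊆ closedBall z0 (2 * r) := by
      intro t ht
      rw [mem_closedBall] at ht ⊢
      rw [mem_ball] at hz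
      have := dist_triangle t z z0
      have := hroutlt k
      linarith
    have hcs : HasCompactSupport (fun t => rho (φ k) (z - t)) :=
      HasCompactSupport.of_support_subset_isCompact (isCompact_closedBall z (φ k).rOut)
        ((subset_tsupport _).trans hsupp)
    have h1 := h (fun t => rho (φ k) (z - t))
      ((rho_contDiff (φ k)).comp (contDiff_const.sub contDiff_id)) hcs
      (hsupp.trans (hin.trans hsub))
    rw [← neg_eq_zero, ← integral_neg, ← h1]
    refine integral_congr_ae (Eventually.of_forall fun t => ?_)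
    simp only
    rw [db_rho_sub]
    by_cases ht : t ∈ closedBall z (φ k).rOut
    · rw [hGe t (hin ht)]
      ring
    · have h2 : db (rho (φ k)) (z - t) = 0 := by
        have h3 : z - t ∉ tsupport (rho (φ k)) := by
          intro hcon
          apply ht
          have h4 : tsupport (rho (φ k)) ⊆ closedBall 0 (φ k).rOut := by
            refine closure_minimal ?_ isClosed_closedBall
            intro s hs
            rw [Function.mem_support] at hs
            by_contra hcon2
            apply hs
            apply rho_zero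
            rw [mem_closedBall_zero_iff] at hcon2
            linarith
          have h5 := h4 hcon
          rw [mem_closedBall_zero_iff] at h5
          rw [mem_closedBall, dist_eq_norm, norm_sub_rev]
          exact h5
        have h6 : fderiv ℝ (rho (φ k)) (z - t) = 0 := by
          by_contra hcon
          exact h3 (tsupport_fderiv_subset ℝ (subset_tsupport _ hcon))
        unfold db
        rw [h6]
        simp
      rw [h2]
      ring
  have hunif : TendstoUniformlyOn (fun k => mol (φ k) G) G atTop (ball z0 r) := by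
    rw [Metric.tendstoUniformlyOn_iff]
    intro ε hε
    have huc : UniformContinuousOn g (closedBall z0 (2 * r)) :=
      (isCompact_closedBall _ _).uniformContinuousOn_of_continuous (hg.mono hsub)
    obtain ⟨δ, hδ, hδ2⟩ := Metric.uniformContinuousOn_iff.1 huc (ε / 2) (half_pos hε)
    have ht : Tendsto (fun k : ℕ => r / ((k : ℝ) + 2)) atTop (𝓝 0) := by
      apply Tendsto.div_atTop tendsto_const_nhds
      exact tendsto_atTop_add_const_right _ _ tendsto_natCast_atTop_atTop
    filter_upwards [ht.eventually (gt_mem_nhds hδ)] with k hk z hz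
    rw [dist_comm]
    refine lt_of_le_of_lt (mol_dist (φ k) hGl (ε := ε / 2) ?_) (half_lt_self hε)
    intro x hx
    rw [mem_ball] at hx hz
    rw [hrout] at hx
    have h1 : x ∈ closedBall z0 (2 * r) := by
      rw [mem_closedBall]
      have := dist_triangle x z z0
      have h3 := hroutlt k
      rw [hrout] at h3
      linarith
    have h2 : z ∈ closedBall z0 (2 * r) := by
      rw [mem_closedBall]; linarith
    rw [hGe x h1, hGe z h2]
    exact (hδ2 x h1 z h2 (hx.trans hk)).le
  have hd : DifferentiableOn ℂ G (ball z0 r) :=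
    hunif.tendstoLocallyUniformlyOn.differentiableOn (Eventually.of_forall hol) isOpen_ball
  have hd2 : DifferentiableOn ℂ g (ball z0 r) :=
    hd.congr fun x hx => (hGe x (by
      rw [mem_ball] at hx
      rw [mem_closedBall]; linarith)).symm
  exact (hd2.differentiableAt (ball_mem_nhds z0 hrp)).differentiableWithinAt

end Vale.Agent.P272.DA
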